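import Crest.Agent.N76.II.Defs

/-! # Row 76 (S0101): the parts (ii), (iii') of theorem I used in step A (replaces `TI`; part (i') is
`Crest.Agent.N76.II.B.TI1`). -/

set_option autoImplicit false

open MeasureTheory Set Metric
open scoped ENNReal RealInnerProductSpace

namespace Crest.Agent.N76.II

open Crest.Agent.N76.Red (V ph)
open Crest.Agent.N76.G

/-- (ii): `H` vanishes on the frequency slab of every dense plank -/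
def TI2 (n : ℕ) : Prop :=
  ∀ α : ℝ, 0 < α → ∃ δ C : ℝ, 0 < δ ∧ 0 ≤ C ∧ ∀ R : ℝ, 1 ≤ R →
    ∀ X : Finset (V n × ℝ), Graph R X →
    ∀ H : L2 n, (∀ᵐ ξ : V n, 1 < ‖ξ‖ → H ξ = 0) →
    (∀ (ν : V n) (c y : ℝ), ‖ν‖ = 1 →
      R ^ ((n : ℝ) - α) ≤ ms X id (fun _ => 1) (plank ν c y (R ^ α * Real.sqrt R)) →
      ∀ᵐ ξ : V n, |⟪ν, ξ⟫ - c| ≤ R ^ α / Real.sqrt R → H ξ = 0) →
    En X id (fun _ => 1) (fun _ => H) ≤ C * R ^ ((n : ℝ) / (n + 1) - δ) * ‖H‖ ^ 2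

/-- (iii'): the support of `H` is covered by few caps of radius `1/s`, `s ≤ R^θ₀` -/
def TI3 (n : ℕ) : Prop :=
  ∃ θ₀ : ℝ, 0 < θ₀ ∧ ∀ α : ℝ, 0 < α → ∃ δ C : ℝ, 0 < δ ∧ 0 ≤ C ∧ ∀ R : ℝ, 1 ≤ R →
    ∀ X : Finset (V n × ℝ), Graph R X →
    ∀ H : L2 n, (∀ᵐ ξ : V n, 1 < ‖ξ‖ → H ξ = 0) →
    ∀ s : ℝ, 1 ≤ s → s ≤ R ^ θ₀ → ∀ F : Finset (V n), (F.card : ℝ) ≤ s ^ (n - 1) * R ^ (-α) →
    (∀ᵐ ξ : V n, H ξ ≠ 0 → ∃ c ∈ F, ‖ξ - c‖ ≤ 1 / s) →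
    En X id (fun _ => 1) (fun _ => H) ≤ C * R ^ ((n : ℝ) / (n + 1) - δ) * ‖H‖ ^ 2

end Crest.Agent.N76.II
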