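import Crest.Agent.N76.II.CD1
import Crest.Agent.N76.G.Hilb

/-! # Row 76: CD, the operator norm of one cluster (helper73). -/

set_option autoImplicit false

open MeasureTheory Set Metric
open scoped ENNReal RealInnerProductSpace ComplexConjugate

namespace Crest.Agent.N76.II

open Crest.Agent.N76.Red (V)
open Crest.Agent.N76.G

variable {d : ℕ}

namespace CD

/-- decay of the Gram kernel -/
lemma gram_le (z z' : V d × ℝ) :
    ‖inner ℂ (pt z) (pt z')‖ ≤ Real.exp (d ^ 2) * (max 1 (dist z z')) ^ (-(d : ℝ) / 2) := by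
  have hpi := Real.pi_gt_three
  have hd0 : (0 : ℝ) ≤ d := Nat.cast_nonneg d
  rw [pt, pt, norm_inner_gam one_pos one_pos]
  set s := Real.sqrt (1 + (z.2 - z'.2) ^ 2) with hs
  have hs2 : s ^ 2 = 1 + (z.2 - z'.2) ^ 2 := Real.sq_sqrt (by positivity)
  have hs1 : 1 ≤ s := Real.one_le_sqrt.2 (by nlinarith [sq_nonneg (z.2 - z'.2)])
  have hs0 : 0 < s := by linarith
  have hst : |z.2 - z'.2| ≤ s := Real.abs_le_sqrt (by linarith)
  set y := ‖z.1 - z'.1‖ / s with hy
  have hy0 : 0 ≤ y := by positivity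
  have e1 : pre d 1 z.2 1 z'.2 = s ^ (-(d : ℝ) / 2) := by
    rw [pre, sig, show 4 * (1 : ℝ) ^ 2 * 1 ^ 2 / ((1 ^ 2 + 1 ^ 2) ^ 2 + 4 * (z.2 - z'.2) ^ 2) =
      s ^ (-2 : ℝ) by
        rw [Real.rpow_neg hs0.le, Real.rpow_two, hs2]; field_simp; ring, ← Real.rpow_mul hs0.le]
    congr 1; ring
  have e2 : Qf 1 z.2 1 z'.2 (((z.1, 0) : Ph d) - (z'.1, 0)) = y ^ 2 / 2 := by
    simp only [Qf, sig, pos, Prod.mk_sub_mk, sub_zero, smul_zero, norm_zero, hy, div_pow, hs2]
    field_simp; ring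
  rw [e1, e2]
  have e3 : max 1 (dist z z') ≤ s * (1 + y) := by
    have : s * (1 + y) = s + ‖z.1 - z'.1‖ := by rw [hy]; field_simp
    rw [this, Prod.dist_eq, dist_eq_norm, Real.dist_eq]
    have := norm_nonneg (z.1 - z'.1)
    exact max_le (by linarith) (max_le (by linarith) (by linarith))
  have e4 : (s * (1 + y)) ^ (-(d : ℝ) / 2) ≤ (max 1 (dist z z')) ^ (-(d : ℝ) / 2) :=
    Real.rpow_le_rpow_of_nonpos (lt_max_of_lt_left one_pos) e3 (by linarith)
  refine le_trans ?_ (mul_le_mul_of_nonneg_left e4 (Real.exp_pos _).le)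
  rw [Real.mul_rpow hs0.le (by linarith), mul_left_comm]
  refine mul_le_mul_of_nonneg_left ?_ (by positivity)
  have e5 : Real.exp y ^ (-(d : ℝ) / 2) ≤ (1 + y) ^ (-(d : ℝ) / 2) :=
    Real.rpow_le_rpow_of_nonpos (by linarith) (by linarith [Real.add_one_le_exp y]) (by linarith)
  refine le_trans ?_ (mul_le_mul_of_nonneg_left e5 (Real.exp_pos _).le)
  rw [← Real.exp_mul, ← Real.exp_add]
  refine Real.exp_le_exp.2 ?_
  nlinarith [sq_nonneg (y - d), sq_nonneg y]

open Classical in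
/-- shells -/
lemma shell_sum {ι α : Type*} [PseudoMetricSpace α] (X : Finset ι) (p : ι → α) (w : ι → ℝ)
    (hw : ∀ z ∈ X, 0 ≤ w z) (x : α) {ρ N : ℝ} (hρ : 0 < ρ) (hN : 0 ≤ N)
    (h : ∀ r, ρ ≤ r → ms X p w (closedBall x r) ≤ N * (r / ρ) ^ (1 / 4 : ℝ)) :
    ∑ z ∈ X.filter (fun z => ρ ≤ dist x (p z)), w z * (ρ / dist x (p z)) ^ (1 / 2 : ℝ) ≤ 4 * N := by
  obtain ⟨K, hK⟩ : ∃ K : ℕ, ∀ z ∈ X, dist x (p z) < ρ * 16 ^ K := by
    obtain ⟨D, hD⟩ := (X.image fun z => dist x (p z)).bddAbove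
    obtain ⟨K, hK⟩ := pow_unbounded_of_one_lt (D / ρ) (by norm_num : (1 : ℝ) < 16)
    refine ⟨K, fun z hz => lt_of_le_of_lt (hD (by simpa using ⟨z, hz, rfl⟩)) ?_⟩
    rwa [div_lt_iff₀' hρ] at hK
  have h16 : ∀ k : ℕ, ((16 : ℝ) ^ k) ^ (1 / 4 : ℝ) = 2 ^ k := fun k => by
    rw [show (16 : ℝ) ^ k = (2 ^ k) ^ 4 by rw [← pow_mul, mul_comm, pow_mul]; norm_num,
      ← Real.rpow_natCast _ 4, ← Real.rpow_mul (by positivity)]
    norm_num
  calc _ ≤ ∑ z ∈ X.filter (fun z => ρ ≤ dist x (p z)), ∑ k ∈ Finset.range K,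
        (if p z ∈ closedBall x (ρ * 16 ^ (k + 1)) then w z else 0) * (1 / 4) ^ k := by
        refine Finset.sum_le_sum fun z hz => ?_
        obtain ⟨hzX, hz⟩ := Finset.mem_filter.1 hz
        obtain ⟨k, hk1, hk2⟩ := exists_nat_pow_near (x := dist x (p z) / ρ) (y := 16)
          ((one_le_div hρ).2 hz) (by norm_num)
        have hkK : k < K := by
          have : (16 : ℝ) ^ k < 16 ^ K := hk1.trans_lt ((div_lt_iff₀' hρ).2 (hK z hzX))
          exact (pow_lt_pow_iff_right₀ (by norm_num)).1 this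
        refine le_trans ?_ (Finset.single_le_sum (f := fun k =>
          (if p z ∈ closedBall x (ρ * 16 ^ (k + 1)) then w z else 0) * (1 / 4 : ℝ) ^ k)
          (fun k _ => mul_nonneg (by split_ifs; exacts [hw z hzX, le_rfl]) (by positivity))
          (Finset.mem_range.2 hkK))
        rw [if_pos (by rw [mem_closedBall, dist_comm]; exact ((div_lt_iff₀' hρ).1 hk2).le)]
        refine mul_le_mul_of_nonneg_left ?_ (hw z hzX)
        have e1 : ρ / dist x (p z) ≤ ((1 / 4) ^ k) ^ 2 := by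
          rw [← inv_div, ← pow_mul, mul_comm, pow_mul,
            show ((1 / 4 : ℝ) ^ 2) = 16⁻¹ by norm_num, inv_pow]
          exact inv_anti₀ (by positivity) hk1
        refine (Real.rpow_le_rpow (by positivity) e1 (by norm_num)).trans (le_of_eq ?_)
        rw [← Real.rpow_natCast _ 2, ← Real.rpow_mul (by positivity)]
        norm_num
    _ ≤ ∑ z ∈ X, ∑ k ∈ Finset.range K,
        (if p z ∈ closedBall x (ρ * 16 ^ (k + 1)) then w z else 0) * (1 / 4) ^ k := by
        refine Finset.sum_le_sum_of_subset_of_nonneg (Finset.filter_subset _ _) fun z hz _ => ?_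
        exact Finset.sum_nonneg fun k _ =>
          mul_nonneg (by split_ifs; exacts [hw z hz, le_rfl]) (by positivity)
    _ = ∑ k ∈ Finset.range K, ms X p w (closedBall x (ρ * 16 ^ (k + 1))) * (1 / 4) ^ k := by
        rw [Finset.sum_comm]
        refine Finset.sum_congr rfl fun k _ => ?_
        rw [← Finset.sum_mul, ms, Finset.sum_filter]
    _ ≤ ∑ k ∈ Finset.range K, 2 * N * (1 / 2) ^ k := by
        refine Finset.sum_le_sum fun k _ => ?_
        have := h (ρ * 16 ^ (k + 1)) (le_mul_of_one_le_right hρ.le (one_le_pow₀ (by norm_num)))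
        rw [mul_div_cancel_left₀ _ hρ.ne', h16] at this
        refine (mul_le_mul_of_nonneg_right this (by positivity)).trans (le_of_eq ?_)
        rw [pow_succ, show (1 / 2 : ℝ) ^ k = 2 ^ k * (1 / 4) ^ k by rw [← mul_pow]; norm_num]
        ring
    _ ≤ 4 * N := by
        rw [← Finset.mul_sum]
        nlinarith [sum_geometric_two_le K]

open Classical in
/-- far Schur sum -/
lemma far_sum (hd : 1 ≤ d) {ι : Type*} (X : Finset ι) (p : ι → V d × ℝ) (w : ι → ℝ)
    (hw : ∀ z ∈ X, 0 ≤ w z) {N₁ K₀ ρ : ℝ} (hN : 0 ≤ N₁) (hρ : 1 ≤ ρ) (hρK : ρ ≤ K₀) (x : V d × ℝ)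
    (h : ∀ r, 0 ≤ r → ms X p w (closedBall x r) ≤ N₁ * (max 1 (r / K₀)) ^ (1 / 4 : ℝ)) :
    ∑ z ∈ X.filter (fun z => ρ ≤ dist x (p z)), w z * ‖inner ℂ (pt x) (pt (p z))‖ ≤
      4 * Real.exp (d ^ 2) * N₁ * ρ ^ (-(d : ℝ) / 2) := by
  have hρ0 : 0 < ρ := by linarith
  have hd1 : (1 : ℝ) ≤ d := by exact_mod_cast hd
  have h1 := shell_sum X p w hw x hρ0 hN fun r hr => (h r (by linarith)).trans (by
    refine mul_le_mul_of_nonneg_left (Real.rpow_le_rpow (by positivity) ?_ (by norm_num)) hN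
    exact max_le ((one_le_div hρ0).2 hr) (div_le_div_of_nonneg_left (by linarith) hρ0 hρK))
  calc _ ≤ ∑ z ∈ X.filter (fun z => ρ ≤ dist x (p z)), Real.exp (d ^ 2) * ρ ^ (-(d : ℝ) / 2) *
        (w z * (ρ / dist x (p z)) ^ (1 / 2 : ℝ)) := by
        refine Finset.sum_le_sum fun z hz => ?_
        obtain ⟨hzX, hz⟩ := Finset.mem_filter.1 hz
        rw [mul_left_comm, mul_assoc]
        refine mul_le_mul_of_nonneg_left ((gram_le _ _).trans ?_) (hw z hzX)
        refine mul_le_mul_of_nonneg_left ?_ (Real.exp_pos _).le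
        have hD : 0 < dist x (p z) := by linarith
        rw [max_eq_right (hρ.trans hz)]
        have e1 : dist x (p z) ^ (-(d : ℝ) / 2) =
            ρ ^ (-(d : ℝ) / 2) * (ρ / dist x (p z)) ^ ((d : ℝ) / 2) := by
          rw [Real.div_rpow hρ0.le hD.le, neg_div, Real.rpow_neg hρ0.le, Real.rpow_neg hD.le]
          have : 0 < ρ ^ ((d : ℝ) / 2) := by positivity
          field_simp
        rw [e1]
        refine mul_le_mul_of_nonneg_left ?_ (by positivity)
        exact Real.rpow_le_rpow_of_exponent_ge (by positivity) ((div_le_one hD).2 hz) (by linarith)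
    _ ≤ _ := by
        rw [← Finset.mul_sum]
        refine (mul_le_mul_of_nonneg_left h1 (by positivity)).trans (le_of_eq (by ring))

/-- abstract near/far decomposition of a Gram matrix -/
lemma gram_split {E : Type*} [NormedAddCommGroup E] [InnerProductSpace ℂ E] {ι κ : Type*}
    [DecidableEq κ] (X : Finset ι) (T : Finset κ) (π : ι → κ) (hπ : ∀ z ∈ X, π z ∈ T)
    (ψ : ι → E) (nr : κ → κ → Prop) [DecidableRel nr] (hsym : ∀ c c', nr c c' → nr c' c)
    {L D F : ℝ} (hD0 : 0 ≤ D) (hL : ∀ c ∈ T, ((T.filter (nr c)).card : ℝ) ≤ L)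
    (hD : ∀ c ∈ T, ∀ u : ι → ℂ, ‖∑ z ∈ X.filter (fun z => π z = c), u z • ψ z‖ ^ 2 ≤
      D * ∑ z ∈ X.filter (fun z => π z = c), ‖u z‖ ^ 2)
    (G : ι → ι → ℝ) (hG0 : ∀ z ∈ X, ∀ z' ∈ X, 0 ≤ G z z')
    (hG : ∀ z ∈ X, ∀ z' ∈ X, ∀ s t : ℝ, 0 ≤ s → 0 ≤ t → ¬ nr (π z) (π z') →
      s * t * ‖inner ℂ (ψ z) (ψ z')‖ ≤ (s ^ 2 * G z z' + t ^ 2 * G z' z) / 2)
    (hF : ∀ z ∈ X, ∑ z' ∈ X, G z z' ≤ F) (u : ι → ℂ) :
    ‖∑ z ∈ X, u z • ψ z‖ ^ 2 ≤ (L * D + F) * ∑ z ∈ X, ‖u z‖ ^ 2 := by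
  set S : κ → E := fun c => ∑ z ∈ X.filter (fun z => π z = c), u z • ψ z with hS
  have e1 : ∑ z ∈ X, u z • ψ z = ∑ c ∈ T, S c := (Finset.sum_fiberwise_of_maps_to hπ _).symm
  have e2 : ∑ c ∈ T, ‖S c‖ ^ 2 ≤ D * ∑ z ∈ X, ‖u z‖ ^ 2 := by
    rw [← Finset.sum_fiberwise_of_maps_to hπ (fun z => ‖u z‖ ^ 2), Finset.mul_sum]
    exact Finset.sum_le_sum fun c hc => hD c hc u
  set B : ι → ι → ℝ := fun z z' => (‖u z‖ ^ 2 * G z z' + ‖u z'‖ ^ 2 * G z' z) / 2 with hB
  have hB0 : ∀ z ∈ X, ∀ z' ∈ X, 0 ≤ B z z' := fun z hz z' hz' => by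
    have := hG0 z hz z' hz'
    have := hG0 z' hz' z hz
    positivity
  have e3 : ∀ c ∈ T, ∀ c' ∈ T, ‖inner ℂ (S c) (S c')‖ ≤
      (if nr c c' then (‖S c‖ ^ 2 + ‖S c'‖ ^ 2) / 2 else 0) +
      ∑ z ∈ X.filter (fun z => π z = c), ∑ z' ∈ X.filter (fun z => π z = c'), B z z' := by
    intro c _ c' _
    have p0 : 0 ≤ ∑ z ∈ X.filter (fun z => π z = c), ∑ z' ∈ X.filter (fun z => π z = c'), B z z' :=
      Finset.sum_nonneg fun z hz => Finset.sum_nonneg fun z' hz' =>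
        hB0 z (Finset.mem_filter.1 hz).1 z' (Finset.mem_filter.1 hz').1
    split_ifs with hn
    · have := norm_inner_le_norm (𝕜 := ℂ) (S c) (S c')
      nlinarith [sq_nonneg (‖S c‖ - ‖S c'‖)]
    · rw [zero_add, hS]
      simp only
      rw [sum_inner]
      refine (norm_sum_le _ _).trans (Finset.sum_le_sum fun z hz => ?_)
      rw [inner_sum]
      refine (norm_sum_le _ _).trans (Finset.sum_le_sum fun z' hz' => ?_)
      obtain ⟨hz1, rfl⟩ := Finset.mem_filter.1 hz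
      obtain ⟨hz1', rfl⟩ := Finset.mem_filter.1 hz'
      rw [inner_smul_left, inner_smul_right, norm_mul, norm_mul, RCLike.norm_conj, ← mul_assoc]
      exact hG z hz1 z' hz1' _ _ (norm_nonneg _) (norm_nonneg _) hn
  have e4 : ‖∑ c ∈ T, S c‖ ^ 2 ≤ ∑ c ∈ T, ∑ c' ∈ T, ‖inner ℂ (S c) (S c')‖ := by
    rw [← inner_self_eq_norm_sq (𝕜 := ℂ)]
    refine (RCLike.re_le_norm _).trans ?_
    rw [sum_inner]
    refine (norm_sum_le _ _).trans (Finset.sum_le_sum fun c _ => ?_)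
    rw [inner_sum]
    exact norm_sum_le _ _
  have e5 : ∑ c ∈ T, ∑ c' ∈ T, (if nr c c' then (‖S c‖ ^ 2 + ‖S c'‖ ^ 2) / 2 else 0) ≤
      L * ∑ c ∈ T, ‖S c‖ ^ 2 := by
    have f1 : ∑ c ∈ T, ∑ c' ∈ T, (if nr c c' then ‖S c‖ ^ 2 / 2 else 0) ≤
        L / 2 * ∑ c ∈ T, ‖S c‖ ^ 2 := by
      rw [Finset.mul_sum]
      refine Finset.sum_le_sum fun c hc => ?_
      rw [← Finset.sum_filter, Finset.sum_const, nsmul_eq_mul]
      nlinarith [hL c hc, sq_nonneg ‖S c‖]
    have f2 : ∑ c ∈ T, ∑ c' ∈ T, (if nr c c' then ‖S c'‖ ^ 2 / 2 else 0) =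
        ∑ c ∈ T, ∑ c' ∈ T, (if nr c c' then ‖S c‖ ^ 2 / 2 else 0) := by
      rw [Finset.sum_comm]
      refine Finset.sum_congr rfl fun c _ => Finset.sum_congr rfl fun c' _ => ?_
      exact if_congr ⟨hsym _ _, hsym _ _⟩ rfl rfl
    have f3 : ∑ c ∈ T, ∑ c' ∈ T, (if nr c c' then (‖S c‖ ^ 2 + ‖S c'‖ ^ 2) / 2 else 0) =
        ∑ c ∈ T, ∑ c' ∈ T, (if nr c c' then ‖S c‖ ^ 2 / 2 else 0) +
        ∑ c ∈ T, ∑ c' ∈ T, (if nr c c' then ‖S c'‖ ^ 2 / 2 else 0) := by
      rw [← Finset.sum_add_distrib]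
      refine Finset.sum_congr rfl fun c _ => ?_
      rw [← Finset.sum_add_distrib]
      refine Finset.sum_congr rfl fun c' _ => ?_
      split_ifs <;> ring
    rw [f3, f2]; linarith
  have e6 : ∑ c ∈ T, ∑ c' ∈ T, ∑ z ∈ X.filter (fun z => π z = c),
      ∑ z' ∈ X.filter (fun z => π z = c'), B z z' = ∑ z ∈ X, ∑ z' ∈ X, B z z' := by
    rw [← Finset.sum_fiberwise_of_maps_to hπ (fun z => ∑ z' ∈ X, B z z')]
    refine Finset.sum_congr rfl fun c _ => ?_
    rw [Finset.sum_comm]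
    exact Finset.sum_congr rfl fun z _ => Finset.sum_fiberwise_of_maps_to hπ _
  have e7 : ∑ z ∈ X, ∑ z' ∈ X, B z z' ≤ F * ∑ z ∈ X, ‖u z‖ ^ 2 := by
    have f1 : ∑ z ∈ X, ∑ z' ∈ X, ‖u z‖ ^ 2 * G z z' ≤ F * ∑ z ∈ X, ‖u z‖ ^ 2 := by
      rw [Finset.mul_sum]
      refine Finset.sum_le_sum fun z hz => ?_
      rw [← Finset.mul_sum, mul_comm]
      exact mul_le_mul_of_nonneg_right (hF z hz) (by positivity)
    have f2 : ∑ z ∈ X, ∑ z' ∈ X, ‖u z'‖ ^ 2 * G z' z = ∑ z ∈ X, ∑ z' ∈ X, ‖u z‖ ^ 2 * G z z' :=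
      Finset.sum_comm
    simp only [hB, add_div, Finset.sum_add_distrib, ← Finset.sum_div]
    rw [f2]; linarith
  have hL0 : 0 ≤ L ∨ T = ∅ := by
    rcases T.eq_empty_or_nonempty with h | ⟨c, hc⟩
    · exact Or.inr h
    · exact Or.inl ((Nat.cast_nonneg _).trans (hL c hc))
  rw [e1]
  refine e4.trans ((Finset.sum_le_sum fun c hc => Finset.sum_le_sum fun c' hc' =>
    e3 c hc c' hc').trans ?_)
  simp only [Finset.sum_add_distrib]
  rw [e6]
  rcases hL0 with hL0 | hT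
  · have := mul_le_mul_of_nonneg_left e2 hL0
    linarith
  · have hX : X = ∅ := Finset.eq_empty_of_forall_notMem fun z hz => by simpa [hT] using hπ z hz
    simp [hX, hT]

lemma En_eq {ι : Type*} (X : Finset ι) (p : ι → V d × ℝ) {w : ι → ℝ} (hw : ∀ z ∈ X, 0 ≤ w z)
    (H : L2 d) : En X p w (fun _ => H) =
      ∑ z ∈ X, ‖inner ℂ (((Real.sqrt (w z) : ℝ) : ℂ) • pt (p z)) H‖ ^ 2 := by
  refine Finset.sum_congr rfl fun z hz => ?_
  rw [inner_smul_left, norm_mul, RCLike.norm_conj, Complex.norm_real,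
    Real.norm_of_nonneg (Real.sqrt_nonneg _), mul_pow, Real.sq_sqrt (hw z hz)]

end CD

open CD in
/-- **CD** -/
theorem cd_of (d : ℕ) (hd : 1 ≤ d) (hSG : SG d) : CD d := by
  classical
  obtain ⟨a₀, C₀, ha₀, ha₁, hC₀, hdz⟩ := dzw hSG
  have hd1 : (1 : ℝ) ≤ d := by exact_mod_cast hd
  set a := a₀ / (a₀ + d / 2) with ha
  have hs1 : 1 ≤ a₀ + d / 2 := by linarith
  have ha0 : 0 < a := by positivity
  have ha2 : a < 2 / ((d : ℝ) + 2) := by
    rw [ha, div_lt_div_iff₀ (by linarith) (by linarith)]; nlinarith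
  have ha1 : a ≤ 1 := ha2.le.trans ((div_le_one (by linarith)).2 (by linarith))
  set E := Real.exp (d ^ 2) with hE
  have hE1 : 1 ≤ E := Real.one_le_exp (by positivity)
  refine ⟨a, 7 ^ (d + 1) * C₀ + 5 * E, ha0, ha2, by positivity, ?_⟩
  intro ι X p w hw N₁ K₀ hN hNK hK hball hms H
  rcases le_total N₁ 1 with hN1 | hN1
  · rw [min_eq_left (Real.self_le_rpow_of_le_one hN.le hN1 ha1)]
    refine (bessel_schur X (fun z => pt (p z)) w hw (D := 5 * E * N₁) (by positivity)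
      (fun z hz => ?_) H).trans (by gcongr; exact le_add_of_nonneg_left (by positivity))
    rw [← Finset.sum_filter_add_sum_filter_not X (fun z' => 1 ≤ dist (p z) (p z'))]
    have h1 := far_sum hd X p w hw hN.le le_rfl hK (p z) (hms z hz)
    rw [Real.one_rpow, mul_one] at h1
    have h2 : ∑ z' ∈ X.filter (fun z' => ¬ 1 ≤ dist (p z) (p z')),
        w z' * ‖inner ℂ (pt (p z)) (pt (p z'))‖ ≤ N₁ := by
      have h3 := hms z hz 1 zero_le_one
      rw [max_eq_left ((div_le_one (by linarith)).2 hK), Real.one_rpow, mul_one] at h3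
      refine le_trans ?_ h3
      unfold ms
      refine (Finset.sum_le_sum fun z' hz' => ?_).trans
        (Finset.sum_le_sum_of_subset_of_nonneg (fun z' hz' => ?_)
          fun z' hz' _ => hw z' (Finset.mem_filter.1 hz').1)
      · refine mul_le_of_le_one_right (hw z' (Finset.mem_filter.1 hz').1) ?_
        exact (norm_inner_le_norm _ _).trans (by rw [norm_pt, norm_pt, one_mul])
      · rw [Finset.mem_filter] at hz' ⊢
        exact ⟨hz'.1, by rw [mem_closedBall, dist_comm]; exact (not_le.1 hz'.2).le⟩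
    nlinarith
  · rw [min_eq_right (Real.rpow_le_self_of_one_le hN1 ha1)]
    set r₀ := N₁ ^ (1 / (a₀ + d / 2)) with hr₀
    have hr1 : 1 ≤ r₀ := Real.one_le_rpow hN1 (by positivity)
    have hr0 : 0 < r₀ := by linarith
    have hrK : r₀ ≤ K₀ :=
      (Real.rpow_le_self_of_one_le hN1 ((div_le_one (by linarith)).2 hs1)).trans hNK
    have hp1 : r₀ ^ a₀ = N₁ ^ a := by
      rw [hr₀, ← Real.rpow_mul hN.le, ha, one_div_mul_eq_div]
    have hp2 : N₁ * r₀ ^ (-(d : ℝ) / 2) = N₁ ^ a := by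
      rw [hr₀, ← Real.rpow_mul hN.le, ← Real.rpow_one_add' hN.le, ha]
      · congr 1; field_simp; ring
      · have : 1 + 1 / (a₀ + d / 2) * (-(d : ℝ) / 2) = a := by rw [ha]; field_simp; ring
        rw [this]; exact ha0.ne'
    obtain ⟨T, hTX, hsep, hnet⟩ := exists_net X p hr0
    choose! π hπT hπ using hnet
    have hNa : 0 ≤ N₁ ^ a := by positivity
    rw [En_eq X p hw]
    refine le_trans ((bessel_iff_gram X _ (D := 7 ^ (d + 1) * (C₀ * N₁ ^ a) + 4 * E * N₁ ^ a)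
      (by positivity)).2 (fun u => ?_) H) (by gcongr; nlinarith)
    refine gram_split X T π hπT _ (fun c c' => dist (p c) (p c') ≤ 3 * r₀)
      (fun c c' h => by rwa [dist_comm]) (by positivity) (fun c _ => ?_) (fun c hc => ?_)
      (fun z z' => if r₀ ≤ dist (p z) (p z') then w z' * ‖inner ℂ (pt (p z)) (pt (p z'))‖ else 0)
      (fun z _ z' hz' => ?_) (fun z hz z' hz' s t hs ht hn => ?_) (fun z hz => ?_) u
    · refine (card_le_of_sep_st _ p (p c) (r := 3 * r₀) (by positivity) hr0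
        (fun c' hc' => by rw [dist_comm]; exact (Finset.mem_filter.1 hc').2)
        (fun c₁ h₁ c₂ h₂ => hsep c₁ (Finset.mem_filter.1 h₁).1 c₂
          (Finset.mem_filter.1 h₂).1)).trans (le_of_eq ?_)
      congr 1; field_simp; ring
    · have hw' : ∀ z ∈ X.filter (fun z => π z = c), 0 ≤ w z :=
        fun z hz => hw z (Finset.mem_filter.1 hz).1
      have hc' : ∀ z ∈ X.filter (fun z => π z = c), dist (p z) (p c) ≤ r₀ := fun z hz => by
        obtain ⟨hz1, rfl⟩ := Finset.mem_filter.1 hz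
        exact (hπ z hz1).le
      have hsub : ∀ A, ms (X.filter fun z => π z = c) p w A ≤ ms X p w A := fun A => by
        unfold ms
        exact Finset.sum_le_sum_of_subset_of_nonneg
          (Finset.filter_subset_filter _ (Finset.filter_subset _ _))
          fun z hz _ => hw z (Finset.mem_filter.1 hz).1
      have hK' : K₀ ≤ (d + 1) * K₀ := le_mul_of_one_le_left (by linarith) (by linarith)
      refine (bessel_iff_gram _ _ (by positivity)).1 fun H' => ?_
      rw [← En_eq _ p hw', ← hp1]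
      refine hdz ι _ p w (p c) r₀ hr1 hw' hc' (fun x r hr => ?_) H'
      rcases le_total r r₀ with h | h
      · exact (hsub _).trans (hball x r hr (by linarith))
      · refine (ms_mono _ hw' (F := closedBall (p c) r₀) (q := p) fun z hz _ => hc' z hz).trans
          ((hsub _).trans ((hball _ r₀ hr1 (by linarith)).trans ?_))
        exact pow_le_pow_left₀ hr0.le h _
    · have := hw z' hz'
      split_ifs <;> positivity
    · have h1 : r₀ ≤ dist (p z) (p z') := by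
        have := dist_triangle4 (p (π z)) (p z) (p z') (p (π z'))
        have h2 := hπ z hz
        have h3 := hπ z' hz'
        rw [dist_comm] at h2
        linarith [not_le.1 hn]
      rw [if_pos h1, if_pos (by rwa [dist_comm]), inner_smul_left, inner_smul_right, norm_mul,
        norm_mul, RCLike.norm_conj, Complex.norm_real, Complex.norm_real,
        Real.norm_of_nonneg (Real.sqrt_nonneg _), Real.norm_of_nonneg (Real.sqrt_nonneg _),
        norm_inner_symm (pt (p z'))]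
      set g := ‖inner ℂ (pt (p z)) (pt (p z'))‖
      have hg : 0 ≤ g := norm_nonneg _
      have e1 := Real.sq_sqrt (hw z hz)
      have e2 := Real.sq_sqrt (hw z' hz')
      set x := Real.sqrt (w z)
      set y := Real.sqrt (w z')
      rw [← e1, ← e2]
      nlinarith [mul_nonneg hg (sq_nonneg (s * y - t * x))]
    · rw [← Finset.sum_filter]
      refine (far_sum hd X p w hw hN.le hr1 hrK (p z) (hms z hz)).trans (le_of_eq ?_)
      rw [← hp2]; ring

end Crest.Agent.N76.II
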