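import Crest.Agent.N76.II.Dens

/-! # Row 76 (S0101): a tower does not move lines (`CH`, helper28). -/

set_option autoImplicit false

open MeasureTheory Set Metric
open scoped ENNReal RealInnerProductSpace

namespace Crest.Agent.N76.II

open Crest.Agent.N76.Red (V ph)
open Crest.Agent.N76.G

variable {d : ℕ}

/-- Schur test for the far kernel -/
theorem lintegral_far_sq_le {a a' : ℝ} (ha : 0 < a) (ha' : 0 < a') (t t' s : ℝ) {c : Ph d → ℂ}
    (hc : MemLp c 2 volume) :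
    ∫⁻ β, (∫⁻ β', farK a t a' t' s (β - β') * ‖c β'‖ₑ) ^ 2 ≤
      ENNReal.ofReal (16 ^ d * Real.exp (-Real.pi * s) / pre d a t a' t' ^ 2 * ∫ β', ‖c β'‖ ^ 2) := by
  have hp := pre_pos (d := d) ha ha' t t'
  refine (lintegral_conv_sq_le (measurable_farK a t a' t' s) hc.1.enorm).trans_eq ?_
  unfold farK
  rw [lintegral_exp_Qf ha ha' t t' one_half_pos (by positivity), lintegral_enorm_sq_eq hc,
    ← ENNReal.ofReal_pow (by positivity), ← ENNReal.ofReal_mul (by positivity)]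
  congr 1
  have e1 : Real.exp (-Real.pi * s) = Real.exp (-Real.pi * s / 2) ^ 2 := by
    rw [← Real.exp_nat_mul]; congr 1; push_cast; ring
  have e2 : (16 : ℝ) ^ d = ((2 / (1 / 2)) ^ d) ^ 2 := by
    rw [← pow_mul, mul_comm, pow_mul]; norm_num
  rw [e1, e2]; field_simp

theorem lintegral_indicator_enorm_sq {c : Ph d → ℂ} (hc : MemLp c 2 volume) {F : Set (Ph d)}
    (hF : MeasurableSet F) :
    ∫⁻ β, F.indicator 1 β * (1 * ‖c β‖ₑ ^ 2) = ENNReal.ofReal (∫ β in F, ‖c β‖ ^ 2) := by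
  rw [← lintegral_enorm_sq_eq (hc.restrict F), ← lintegral_indicator hF]
  refine lintegral_congr fun β => ?_
  by_cases h : β ∈ F <;> simp [h]

/-- transfer between two sets of lines -/
theorem transfer_set {a a' : ℝ} (ha : 0 < a) (ha' : 0 < a') (t t' : ℝ) {c : Ph d → ℂ}
    (hc : MemLp c 2 volume) {F F' : Set (Ph d)} (hF : MeasurableSet F) (hF' : MeasurableSet F')
    {s : ℝ} (hs : ∀ β ∈ F, ∀ β' ∉ F', s ≤ Qf a t a' t' (β - β')) :
    ∫ β in F, ‖co a t (syn a' t' c) β‖ ^ 2 ≤ 2 * (∫ β in F', ‖c β‖ ^ 2) +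
      2 * (16 ^ d * Real.exp (-Real.pi * s) / pre d a t a' t' ^ 2 * ∫ β', ‖c β'‖ ^ 2) := by
  have hp := pre_pos (d := d) ha ha' t t'
  have h := transfer_local ha ha' t t' hc (B := F) hF' (w := fun _ => 1) (w' := fun _ => 1)
    (Wm := 1) (fun _ => le_rfl) (fun _ _ _ _ => le_rfl) hs
  rw [lintegral_indicator_enorm_sq (memLp_co ha t _) hF, lintegral_indicator_enorm_sq hc hF'] at h
  have h2 : ∫⁻ β, F.indicator 1 β *
      (2 * 1 * (∫⁻ β', farK a t a' t' s (β - β') * ‖c β'‖ₑ) ^ 2) ≤ 2 * ENNReal.ofReal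
      (16 ^ d * Real.exp (-Real.pi * s) / pre d a t a' t' ^ 2 * ∫ β', ‖c β'‖ ^ 2) := by
    refine le_trans ?_ (mul_le_mul' le_rfl (lintegral_far_sq_le ha ha' t t' s hc))
    rw [← lintegral_const_mul' _ _ ENNReal.ofNat_ne_top]
    refine lintegral_mono fun β => ?_
    by_cases h : β ∈ F <;> simp [h]
  have i1 : 0 ≤ ∫ β in F', ‖c β‖ ^ 2 := integral_nonneg fun β => by positivity
  have i2 : 0 ≤ ∫ β', ‖c β'‖ ^ 2 := integral_nonneg fun β => by positivity
  have e : ∀ x : ℝ, 2 * ENNReal.ofReal x = ENNReal.ofReal (2 * x) := fun x => by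
    rw [ENNReal.ofReal_mul zero_le_two, ENNReal.ofReal_ofNat]
  have h3 := h.trans (add_le_add le_rfl h2)
  rw [e, e, ← ENNReal.ofReal_add (by positivity) (by positivity)] at h3
  exact (ENNReal.ofReal_le_ofReal_iff (by positivity)).1 h3

theorem norm_pos_le (t t' : ℝ) (Δ : Ph d) : ‖pos t Δ‖ ≤ ‖pos t' Δ‖ + 2 * |t' - t| * ‖Δ.2‖ := by
  have : pos t Δ = pos t' Δ + (2 * (t' - t)) • Δ.2 := by
    simp only [pos, mul_sub, sub_smul]; abel
  rw [this]
  refine (norm_add_le _ _).trans_eq ?_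
  rw [norm_smul, Real.norm_eq_abs, abs_mul, abs_two]

/-- one step of the chain -/
theorem ch_step {R b a a' t t' t'' : ℝ} (hR : 1 ≤ R) (hb : 1 ≤ b) (ha : 1 ≤ a) (haa : a ≤ a')
    (ha' : a' ≤ Real.sqrt R) (ht : |t' - t| ≤ a ^ 2) (ht' : |t' - t''| ≤ 2 * a' ^ 2)
    {F F' : Set (Ph d)} (hF : MeasurableSet F) (hF' : MeasurableSet F')
    (hfar : ∀ β ∈ F, ∀ β' ∉ F',
      15 * b * Real.sqrt R ≤ ‖pos t (β - β')‖ ∨ 15 * b / a ≤ ‖β.2 - β'.2‖)
    {c : Ph d → ℂ} (hc : MemLp c 2 volume) :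
    ∫ β in F, ‖co a t' (syn a' t'' c) β‖ ^ 2 ≤ 2 * (∫ β in F', ‖c β‖ ^ 2) +
      2 * 80 ^ d * R ^ d * Real.exp (-b) * ∫ β', ‖c β'‖ ^ 2 := by
  have ha0 : 0 < a := by linarith
  have ha0' : 0 < a' := by linarith
  have hp := pre_pos (d := d) ha0 ha0' t' t''
  refine (transfer_set ha0 ha0' t' t'' hc hF hF' (s := b) fun β hβ β' hβ' => ?_).trans ?_
  · refine le_trans ?_ (Qf_ge_two ha0 haa ht' _)
    by_contra hcon
    push Not at hcon
    have n1 : 0 ≤ ‖pos t' (β - β')‖ ^ 2 / (20 * a' ^ 2) := by positivity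
    have n2 : 0 ≤ a ^ 2 * ‖(β - β').2‖ ^ 2 / 20 := by positivity
    have hb2 : b ≤ b ^ 2 := by nlinarith
    have h1 : ‖pos t' (β - β')‖ < 5 * b * a' := by
      refine lt_of_pow_lt_pow_left₀ 2 (by positivity) ?_
      have : ‖pos t' (β - β')‖ ^ 2 / (20 * a' ^ 2) < b ^ 2 := by linarith
      rw [div_lt_iff₀ (by positivity)] at this
      nlinarith [sq_nonneg (b * a')]
    have h2 : a * ‖(β - β').2‖ < 5 * b := by
      refine lt_of_pow_lt_pow_left₀ 2 (by positivity) ?_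
      rw [mul_pow]
      nlinarith
    rcases hfar β hβ β' hβ' with h | h
    · have h3 := norm_pos_le t t' (β - β')
      have h4 : |t' - t| * ‖(β - β').2‖ ≤ a * (a * ‖(β - β').2‖) := by
        rw [← mul_assoc, ← sq]; gcongr
      have h5 : a * (a * ‖(β - β').2‖) ≤ Real.sqrt R * (5 * b) :=
        mul_le_mul (haa.trans ha') h2.le (by positivity) (by positivity)
      have h6 : 5 * b * a' ≤ 5 * b * Real.sqrt R := by gcongr
      linarith
    · rw [div_le_iff₀ ha0, ← Prod.snd_sub] at h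
      linarith
  · have i2 : 0 ≤ ∫ β', ‖c β'‖ ^ 2 := integral_nonneg fun β => by positivity
    have h1 : Real.exp (-Real.pi * b) ≤ Real.exp (-b) :=
      Real.exp_le_exp.2 (by nlinarith [Real.pi_gt_three])
    have h2 : ((5 * R) ^ d)⁻¹ ≤ pre d a t' a' t'' ^ 2 := by
      refine le_trans ?_ (pre_sq_ge ha0 haa ht')
      have h3 : a' ^ 2 ≤ R := by
        rw [← Real.sq_sqrt (by linarith : 0 ≤ R)]; gcongr
      have h4 : (5 * R)⁻¹ ≤ a ^ 2 / (5 * a' ^ 2) := by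
        rw [← one_div]
        exact div_le_div₀ (by positivity) (one_le_pow₀ ha) (by positivity) (by linarith)
      rw [← inv_pow, ← Real.rpow_natCast]
      refine le_trans ?_ (Real.rpow_le_rpow (by positivity) h4 (by positivity))
      exact Real.rpow_le_rpow_of_exponent_ge (by positivity) (inv_le_one_of_one_le₀ (by linarith))
        (by linarith [(Nat.cast_nonneg d : (0 : ℝ) ≤ d)])
    have h5 : 16 ^ d * Real.exp (-Real.pi * b) / pre d a t' a' t'' ^ 2 ≤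
        80 ^ d * R ^ d * Real.exp (-b) := by
      calc _ ≤ 16 ^ d * Real.exp (-b) / ((5 * R) ^ d)⁻¹ := by gcongr
        _ = _ := by
          rw [div_inv_eq_mul, mul_pow, show (80 : ℝ) = 16 * 5 by norm_num, mul_pow]; ring
    nlinarith [mul_le_mul_of_nonneg_right h5 i2]

theorem abs_wt_sub_le {b : ℕ} (hb : 1 ≤ b) (j : ℕ) (t : ℝ) :
    |wt b j t - t| ≤ ((b : ℝ) ^ j) ^ 2 := by
  have hL : (0 : ℝ) < (b : ℝ) ^ (2 * j) := by positivity
  have h1 := Int.floor_le (t / (b : ℝ) ^ (2 * j))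
  have h2 := Int.lt_floor_add_one (t / (b : ℝ) ^ (2 * j))
  rw [le_div_iff₀ hL] at h1
  rw [div_lt_iff₀ hL] at h2
  rw [← pow_mul, mul_comm j 2, wt, win, abs_le]
  constructor <;> linarith

theorem integral_indicator_co_sq_le {a : ℝ} (ha : 0 < a) (t : ℝ) (h : L2 d) {A : Set (Ph d)}
    (hA : MeasurableSet A) (F : Set (Ph d)) :
    ∫ β in F, ‖A.indicator (co a t h) β‖ ^ 2 ≤ ∫ β in F, ‖co a t h β‖ ^ 2 :=
  integral_mono (((memLp_co ha t h).indicator hA).restrict F |>.integrable_norm_pow two_ne_zero)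
    ((memLp_co ha t h).restrict F |>.integrable_norm_pow two_ne_zero) fun β => by
      dsimp only
      gcongr
      exact norm_indicator_le_norm_self _ _

theorem ch_aux (d m : ℕ) : ∃ C : ℝ, 1 ≤ C ∧ ∀ (M : ℕ) (R : ℝ) (b i : ℕ), 1 ≤ R → 2 ≤ b →
    (b : ℝ) ^ (2 * M) ≤ R → i + m = M + 1 →
    ∀ (A : ℕ → ℤ → Set (Ph d)), (∀ l k, MeasurableSet (A l k)) →
    ∀ (a t t' ρ₁ ρ₂ : ℝ), 1 ≤ a → a ≤ (b : ℝ) ^ i → a ≤ Real.sqrt R → |t| ≤ R → |t' - t| ≤ a ^ 2 →
    C * b * Real.sqrt R ≤ ρ₁ → C * b / a ≤ ρ₂ →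
    ∀ (𝓡 F : Set (Ph d)), MeasurableSet 𝓡 → MeasurableSet F →
    (∀ β ∈ F, ∀ β' ∈ 𝓡, ρ₁ ≤ ‖pos t (β - β')‖ ∨ ρ₂ ≤ ‖β.2 - β'.2‖) →
    ∀ g : L2 d, ∫ β in F, ‖co a t' (tower b A i M (loc (Real.sqrt R) 0 𝓡 g) t) β‖ ^ 2 ≤
      C * R ^ d * Real.exp (-(b : ℝ)) * ‖g‖ ^ 2 := by
  induction m with
  | zero =>
    refine ⟨15 + 2 * 80 ^ d, by linarith [show (0 : ℝ) ≤ 80 ^ d by positivity], ?_⟩
    intro M R b i hR hb hbR him A hA a t t' ρ₁ ρ₂ ha hab haR ht ht' hρ₁ hρ₂ 𝓡 F h𝓡 hF hfar g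
    obtain rfl : i = M + 1 := him
    have hb1 : (1 : ℝ) ≤ b := by exact_mod_cast (by omega : 1 ≤ b)
    have hT : 0 < Real.sqrt R := by positivity
    have hsq : Real.sqrt R ^ 2 = R := Real.sq_sqrt (by linarith)
    have h80 : (0 : ℝ) ≤ 80 ^ d := by positivity
    rw [tower_top, loc]
    refine (ch_step hR hb1 ha haR le_rfl ht' ?_ hF h𝓡.compl (fun β hβ β' hβ' => ?_)
      ((memLp_co hT 0 g).indicator h𝓡)).trans ?_
    · have h1 : a ^ 2 ≤ Real.sqrt R ^ 2 := by gcongr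
      have h2 := abs_add_le (t' - t) t
      rw [sub_add_cancel] at h2
      rw [sub_zero]; linarith
    · refine (hfar β hβ β' (not_not.1 hβ')).imp (le_trans (le_trans ?_ hρ₁))
        (le_trans (le_trans ?_ hρ₂)) <;> gcongr <;> linarith
    · have h1 : ∫ β in 𝓡ᶜ, ‖𝓡.indicator (co (Real.sqrt R) 0 g) β‖ ^ 2 = 0 :=
        setIntegral_eq_zero_of_forall_eq_zero fun β hβ => by simp [indicator_of_notMem hβ]
      have h2 := integral_indicator_co_sq_le hT 0 g h𝓡 univ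
      rw [Measure.restrict_univ, integral_co_sq hT] at h2
      rw [h1, mul_zero, zero_add]
      gcongr
      linarith
  | succ m ih =>
    obtain ⟨C, hC, ih⟩ := ih
    have h80 : (0 : ℝ) ≤ 80 ^ d := by positivity
    refine ⟨2 * C + 15 + 2 * 80 ^ d, by linarith, ?_⟩
    intro M R b i hR hb hbR him A hA a t t' ρ₁ ρ₂ ha hab haR ht ht' hρ₁ hρ₂ 𝓡 F h𝓡 hF hfar g
    have hb1 : (1 : ℝ) ≤ b := by exact_mod_cast (by omega : 1 ≤ b)
    have hT : 0 < Real.sqrt R := by positivity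
    have ha0 : 0 < a := by linarith
    have ha' : (0 : ℝ) < (b : ℝ) ^ i := by positivity
    have hiR : (b : ℝ) ^ i ≤ Real.sqrt R := by
      rw [Real.le_sqrt' ha', ← pow_mul]
      exact (pow_le_pow_right₀ hb1 (by omega)).trans hbR
    have hwt := abs_wt_sub_le (b := b) (by omega) i t
    set F' : Set (Ph d) := ⋃ β ∈ F, {β' | ‖pos t (β - β')‖ < 15 * b * Real.sqrt R ∧
      ‖β.2 - β'.2‖ < 15 * b / a} with hF'
    have hF'o : IsOpen F' := isOpen_biUnion fun β _ =>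
      (isOpen_lt ((continuous_pos t).comp (continuous_const.sub continuous_id)).norm
        continuous_const).inter (isOpen_lt (continuous_const.sub continuous_snd).norm continuous_const)
    set H := tower b A (i + 1) M (loc (Real.sqrt R) 0 𝓡 g) t with hH
    have hHn : ‖H‖ ≤ ‖g‖ := (norm_tower_le (by omega) hA _ _ _ _).trans (norm_loc_le hT 0 h𝓡 g)
    rw [tower_eq_loc b A (by omega), lev, loc]
    refine (ch_step hR hb1 ha hab hiR ht' ?_ hF hF'o.measurableSet (fun β hβ β' hβ' => ?_)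
      ((memLp_co ha' _ H).indicator (hA _ _))).trans ?_
    · have h1 : a ^ 2 ≤ ((b : ℝ) ^ i) ^ 2 := by gcongr
      have h2 := abs_sub_le t' t (wt b i t)
      rw [abs_sub_comm t] at h2
      linarith
    · by_contra hcon
      push Not at hcon
      exact hβ' (mem_biUnion hβ hcon)
    · have h1 := ih M R b (i + 1) hR hb hbR (by omega) A hA ((b : ℝ) ^ i) t (wt b i t)
        (ρ₁ - 15 * b * Real.sqrt R) (ρ₂ - 15 * b / a) (one_le_pow₀ hb1)
        (pow_le_pow_right₀ hb1 (by omega)) hiR ht hwt ?_ ?_ 𝓡 F' h𝓡 hF'o.measurableSet ?_ g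
      · have h2 := integral_indicator_co_sq_le ha' (wt b i t) H (hA i (win b i t)) univ
        rw [Measure.restrict_univ, integral_co_sq ha'] at h2
        have h3 := (integral_indicator_co_sq_le ha' (wt b i t) H (hA i (win b i t)) F').trans h1
        have h4 : ‖H‖ ^ 2 ≤ ‖g‖ ^ 2 := by gcongr
        have h5 : 0 ≤ R ^ d * Real.exp (-(b : ℝ)) := by positivity
        have h6 := mul_le_mul_of_nonneg_left (h2.trans h4) (mul_nonneg h80 h5)
        nlinarith [mul_nonneg h5 (sq_nonneg ‖g‖)]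
      · have : 0 ≤ (C + 2 * 80 ^ d) * (b * Real.sqrt R) := by positivity
        nlinarith
      · have e1 : C * b / (b : ℝ) ^ i ≤ C * b / a := by gcongr
        have e2 : (2 * C + 15 + 2 * 80 ^ d) * b / a =
            C * b / a + 15 * b / a + (C + 2 * 80 ^ d) * b / a := by ring
        have e3 : 0 ≤ (C + 2 * 80 ^ d) * b / a := by positivity
        linarith
      · intro β' hβ' β'' hβ''
        obtain ⟨β, hβ, h₁, h₂⟩ := mem_iUnion₂.1 hβ'
        refine (hfar β hβ β'' hβ'').imp (fun h => ?_) (fun h => ?_)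
        · have e : pos t (β - β'') = pos t (β - β') + pos t (β' - β'') := by
            simp only [pos_sub]; abel
          linarith [norm_add_le (pos t (β - β')) (pos t (β' - β'')), e ▸ h]
        · linarith [norm_sub_le_norm_sub_add_norm_sub β.2 β'.2 β''.2]

theorem ch (d : ℕ) : CH d := by
  intro M
  choose C hC h using ch_aux d
  refine ⟨∑ m ∈ Finset.range (M + 2), C m, ?_, ?_⟩
  · exact (hC 0).trans (Finset.single_le_sum (fun m _ => zero_le_one.trans (hC m)) (by simp))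
  intro R b i hR hb hbR hi A hA a t t' ρ₁ ρ₂ ha hab haR ht ht' hρ₁ hρ₂ 𝓡 F h𝓡 hF hfar g
  have hle : C (M + 1 - i) ≤ ∑ m ∈ Finset.range (M + 2), C m :=
    Finset.single_le_sum (fun m _ => zero_le_one.trans (hC m)) (Finset.mem_range.2 (by omega))
  refine (h (M + 1 - i) M R b i hR hb hbR (by omega) A hA a t t' ρ₁ ρ₂ ha hab haR ht ht'
    (le_trans (by gcongr) hρ₁) (le_trans (by gcongr) hρ₂) 𝓡 F h𝓡 hF hfar g).trans ?_
  gcongr

end Crest.Agent.N76.II
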