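import Crest.Agent.N76.II.PDefs
import Crest.Agent.N76.II.B.Bush
import Crest.Agent.N76.G.Tail

/-! # Row 76 (S0101): basic API for `dens`, `vv`, `xray`, `bavg`, `prd`, `En` (helper28). -/

set_option autoImplicit false

open MeasureTheory Set Metric
open scoped ENNReal RealInnerProductSpace

namespace Crest.Agent.N76.II

open Crest.Agent.N76.Red (V ph)
open Crest.Agent.N76.G

variable {d : ℕ} {ι : Type*} {X : Finset ι} {p : ι → V d × ℝ} {w : ι → ℝ}

theorem pos_lin (u : V d × ℝ) (ζ : V d) : pos u.2 (lin u ζ) = u.1 := by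
  simp [pos, lin]

theorem continuous_dens (r : ℝ) : Continuous (dens X p w r) := B.continuous_dens X p w r

theorem dens_nonneg (hw : ∀ z ∈ X, 0 ≤ w z) {r : ℝ} (hr : 0 < r) (u : V d × ℝ) :
    0 ≤ dens X p w r u := B.dens_nonneg X p hw hr u

theorem exp_neg_dist_le {α : Type*} [PseudoMetricSpace α] {r : ℝ} (hr : 0 < r) (u u' q : α) :
    Real.exp (-(dist u q / r)) ≤ Real.exp (dist u u' / r) * Real.exp (-(dist u' q / r)) := by
  rw [← Real.exp_add, Real.exp_le_exp, ← sub_eq_add_neg, ← sub_div, ← neg_div]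
  gcongr
  linarith [dist_triangle_left u' q u]

theorem dens_lip (hw : ∀ z ∈ X, 0 ≤ w z) {r : ℝ} (hr : 0 < r) (u u' : V d × ℝ) :
    dens X p w r u ≤ Real.exp (dist u u' / r) * dens X p w r u' := by
  unfold dens
  rw [← mul_div_assoc, Finset.mul_sum]
  refine div_le_div_of_nonneg_right (Finset.sum_le_sum fun i hi => ?_) (by positivity)
  rw [mul_left_comm]
  exact mul_le_mul_of_nonneg_left (exp_neg_dist_le hr u u' _) (hw i hi)

theorem gam_exp_pos (d : ℕ) : 0 < 2 / ((d : ℝ) + 2) := by positivity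

theorem gam_exp_le_one (d : ℕ) : 2 / ((d : ℝ) + 2) ≤ 1 := by
  rw [div_le_one (by positivity)]; linarith [(Nat.cast_nonneg d : (0 : ℝ) ≤ d)]

theorem continuous_vv (r : ℝ) : Continuous (vv X p w r) :=
  (continuous_dens r).rpow_const fun _ => Or.inr (gam_exp_pos d).le

theorem vv_nonneg (hw : ∀ z ∈ X, 0 ≤ w z) {r : ℝ} (hr : 0 < r) (u : V d × ℝ) :
    0 ≤ vv X p w r u := Real.rpow_nonneg (dens_nonneg hw hr u) _

theorem vv_lip (hw : ∀ z ∈ X, 0 ≤ w z) {r : ℝ} (hr : 0 < r) (u u' : V d × ℝ) :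
    vv X p w r u ≤ Real.exp (dist u u' / r) * vv X p w r u' := by
  unfold vv
  refine (Real.rpow_le_rpow (dens_nonneg hw hr u) (dens_lip hw hr u u') (gam_exp_pos d).le).trans ?_
  rw [Real.mul_rpow (Real.exp_pos _).le (dens_nonneg hw hr u')]
  refine mul_le_mul_of_nonneg_right ?_ (Real.rpow_nonneg (dens_nonneg hw hr u') _)
  exact Real.rpow_le_self_of_one_le (Real.one_le_exp (by positivity)) (gam_exp_le_one d)

theorem ms_le_dens (hw : ∀ z ∈ X, 0 ≤ w z) {r s : ℝ} (hr : 0 < r) (u : V d × ℝ) :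
    ms X p w (closedBall u s) ≤ Real.exp (s / r) * r ^ (d + 1) * dens X p w r u := by
  classical
  unfold dens ms
  rw [mul_assoc, mul_div_cancel₀ _ (by positivity), Finset.mul_sum, Finset.sum_filter]
  refine Finset.sum_le_sum fun i hi => ?_
  have := hw i hi
  split_ifs with h
  · rw [mul_left_comm, ← Real.exp_add]
    refine le_mul_of_one_le_right this (Real.one_le_exp ?_)
    rw [← sub_eq_add_neg, ← sub_div]
    exact div_nonneg (sub_nonneg.2 (mem_closedBall'.1 h)) hr.le
  · positivity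

theorem one_le_Ssc {R : ℝ} (hR : 1 ≤ R) (n : ℕ) : 1 ≤ Ssc n R :=
  Real.one_le_rpow hR (by positivity)

theorem Ssc_pow {R : ℝ} (hR : 1 ≤ R) : Ssc (d + 1) R ^ (d + 2) = Real.sqrt R := by
  rw [Ssc, ← Real.rpow_natCast, ← Real.rpow_mul (by linarith), Real.sqrt_eq_rpow]
  congr 1; push_cast; field_simp; ring

theorem prd_eq_of_ge {R r : ℝ} (hR : 1 ≤ R) (hr : Ssc (d + 1) R ^ 2 ≤ r) :
    prd d R r = r ^ (d + 1) / Real.sqrt R := by
  have hS := one_le_Ssc hR (d + 1)
  unfold prd
  rw [← Ssc_pow (d := d) hR]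
  generalize Ssc (d + 1) R = S at hS hr
  have h1 : 1 ≤ (r / S) ^ d := one_le_pow₀ (by rw [le_div_iff₀ (by positivity)]; nlinarith)
  have h2 : (r / S) ^ d ≤ r ^ (d + 1) / S ^ (d + 2) := by
    have : r ^ (d + 1) / S ^ (d + 2) = (r / S) ^ d * (r / S ^ 2) := by
      rw [div_pow]; field_simp; ring
    rw [this]
    exact le_mul_of_one_le_right (by linarith) (by rwa [le_div_iff₀ (by positivity), one_mul])
  rw [max_eq_right h2, max_eq_right (h1.trans h2)]

theorem prd_eq_one {R r : ℝ} (hR : 1 ≤ R) (h0 : 0 ≤ r) (hr : r ≤ Ssc (d + 1) R) :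
    prd d R r = 1 := by
  have hS := one_le_Ssc hR (d + 1)
  unfold prd
  rw [← Ssc_pow (d := d) hR]
  generalize Ssc (d + 1) R = S at hS hr
  refine max_eq_left (max_le (pow_le_one₀ (by positivity) ((div_le_one (by positivity)).2 hr)) ?_)
  rw [div_le_one (by positivity)]
  exact (pow_le_pow_left₀ h0 hr _).trans (pow_le_pow_right₀ hS (by omega))

theorem one_le_prd (R r : ℝ) : 1 ≤ prd d R r := le_max_left _ _

theorem prd_mul_le {R r c : ℝ} (hR : 1 ≤ R) (h0 : 0 ≤ r) (hc : 1 ≤ c) :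
    prd d R (c * r) ≤ c ^ (d + 1) * prd d R r := by
  have hS := one_le_Ssc hR (d + 1)
  have hc' : 1 ≤ c ^ (d + 1) := one_le_pow₀ hc
  refine max_le (one_le_mul_of_one_le_of_one_le hc' (one_le_prd R r)) (max_le ?_ ?_)
  · rw [mul_div_assoc, mul_pow]
    exact mul_le_mul (pow_le_pow_right₀ hc (by omega)) ((le_max_left _ _).trans (le_max_right _ _))
      (by positivity) (by positivity)
  · rw [mul_pow, mul_div_assoc]
    exact mul_le_mul_of_nonneg_left ((le_max_right _ _).trans (le_max_right _ _)) (by positivity)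

theorem prd_mono {R r r' : ℝ} (hR : 1 ≤ R) (h0 : 0 ≤ r) (h : r ≤ r') : prd d R r ≤ prd d R r' := by
  have hS := one_le_Ssc hR (d + 1)
  unfold prd
  gcongr

/-- shells: polynomial growth of the mass of balls bounds the exponentially weighted mass -/
theorem exists_shell_const (n : ℕ) : ∃ C : ℝ, 1 ≤ C ∧ ∀ (α : Type) [PseudoMetricSpace α] (ι : Type)
    (X : Finset ι) (p : ι → α) (w : ι → ℝ), (∀ z ∈ X, 0 ≤ w z) → ∀ (u : α) (r A : ℝ), 0 < r → 0 ≤ A →
    (∀ k : ℕ, ms X p w (closedBall u ((k + 1) * r)) ≤ A * (k + 1) ^ n) →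
    ∑ i ∈ X, w i * Real.exp (-(dist u (p i) / r)) ≤ C * A := by
  classical
  have hs : Summable fun k : ℕ => Real.exp (-(k : ℝ)) * ((k : ℝ) + 1) ^ n := by
    have := ((summable_nat_add_iff 1).2
      (Real.summable_pow_mul_exp_neg_nat_mul n one_pos)).mul_left (Real.exp 1)
    refine this.congr fun k => ?_
    rw [mul_left_comm, ← Real.exp_add, mul_comm]
    push_cast
    congr 2; ring
  refine ⟨max 1 (∑' k : ℕ, Real.exp (-(k : ℝ)) * ((k : ℝ) + 1) ^ n), le_max_left _ _,
    fun α _ ι X p w hw u r A hr hA h => ?_⟩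
  set κ : ι → ℕ := fun i => ⌊dist u (p i) / r⌋₊ with hκ
  calc ∑ i ∈ X, w i * Real.exp (-(dist u (p i) / r))
      = ∑ k ∈ X.image κ, ∑ i ∈ X.filter (fun i => κ i = k), w i * Real.exp (-(dist u (p i) / r)) :=
        (Finset.sum_fiberwise_of_maps_to (fun i hi => Finset.mem_image_of_mem κ hi) _).symm
    _ ≤ ∑ k ∈ X.image κ, Real.exp (-(k : ℝ)) * ((k : ℝ) + 1) ^ n * A := by
        refine Finset.sum_le_sum fun k _ => ?_
        rw [mul_assoc, mul_comm _ A]
        refine le_trans ?_ (mul_le_mul_of_nonneg_left (h k) (Real.exp_pos _).le)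
        rw [ms, Finset.mul_sum, Finset.sum_filter, Finset.sum_filter]
        refine Finset.sum_le_sum fun i hi => ?_
        have := hw i hi
        by_cases h1 : κ i = k
        · have h2 : p i ∈ closedBall u ((k + 1) * r) := by
            rw [mem_closedBall', ← div_le_iff₀ hr, ← h1]
            exact (Nat.lt_floor_add_one _).le
          rw [if_pos h1, if_pos h2, mul_comm]
          gcongr
          rw [← h1]
          exact Nat.floor_le (by positivity)
        · rw [if_neg h1]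
          split_ifs <;> positivity
    _ ≤ _ := by
        rw [← Finset.sum_mul]
        exact mul_le_mul_of_nonneg_right
          ((hs.sum_le_tsum _ fun k _ => by positivity).trans (le_max_right _ _)) hA

/-- integral of one bump over a larger ball -/
theorem setIntegral_bump_le {r r' : ℝ} (hr : 0 < r) (hrr : r ≤ r') (u q : V d × ℝ) :
    ∫ u' in closedBall u r', Real.exp (-(dist u' q / r)) ≤
      (Real.exp 2 * 2 ^ (d + 1) * ∫ x : V d × ℝ, Real.exp (-‖x‖)) * r ^ (d + 1) *
        Real.exp (-(dist u q / r')) := by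
  have hr' : 0 < r' := hr.trans_le hrr
  obtain ⟨q', hq'⟩ : ∃ q' : V d × ℝ, ∀ u' ∈ closedBall u r', Real.exp (-(dist u' q / r)) ≤
      Real.exp 2 * Real.exp (-(dist u q / r')) * Real.exp (-(dist u' q' / (2 * r))) := by
    have key : ∀ u' ∈ closedBall u r', dist u q / r' ≤ 1 + dist u' q / r' := fun u' hu' => by
      rw [div_le_iff₀ hr', add_mul, div_mul_cancel₀ _ hr'.ne']
      linarith [dist_triangle u u' q, mem_closedBall'.1 hu']
    rcases le_total (2 * r) r' with h | h
    · refine ⟨q, fun u' hu' => ?_⟩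
      rw [← Real.exp_add, ← Real.exp_add, Real.exp_le_exp]
      have h1 : dist u' q / r' ≤ dist u' q / (2 * r) := by gcongr
      have h2 : dist u' q / r = 2 * (dist u' q / (2 * r)) := by field_simp
      linarith [key u' hu']
    · refine ⟨u, fun u' hu' => ?_⟩
      rw [← Real.exp_add, ← Real.exp_add, Real.exp_le_exp]
      have h1 : dist u' q / r' ≤ dist u' q / r := by gcongr
      have h2 : dist u' u / (2 * r) ≤ 1 := (div_le_one (by positivity)).2 ((mem_closedBall.1 hu').trans h)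
      linarith [key u' hu']
  obtain ⟨i1, i2⟩ := B.integral_exp_neg_dist (volume : Measure (V d × ℝ)) q' (l := 2 * r)
    (by positivity)
  have hf : Module.finrank ℝ (V d × ℝ) = d + 1 := by simp [Module.finrank_prod]
  calc _ ≤ ∫ u' in closedBall u r',
        Real.exp 2 * Real.exp (-(dist u q / r')) * Real.exp (-(dist u' q' / (2 * r))) :=
        setIntegral_mono_on (B.integral_exp_neg_dist volume q hr).1.integrableOn
          (i1.const_mul _).integrableOn measurableSet_closedBall hq'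
    _ ≤ ∫ u', Real.exp 2 * Real.exp (-(dist u q / r')) * Real.exp (-(dist u' q' / (2 * r))) :=
        setIntegral_le_integral (i1.const_mul _) (.of_forall fun _ => by positivity)
    _ = _ := by rw [integral_const_mul, i2, hf, mul_pow]; ring

theorem bavg_dens_le (hw : ∀ z ∈ X, 0 ≤ w z) {r r' : ℝ} (hr : 0 < r) (hrr : r ≤ r') (u : V d × ℝ) :
    bavg (dens X p w r) r' u ≤
      (Real.exp 2 * 2 ^ (d + 1) * ∫ x : V d × ℝ, Real.exp (-‖x‖)) * dens X p w r' u := by
  have hr' : 0 < r' := hr.trans_le hrr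
  unfold bavg dens
  rw [← mul_div_assoc]
  refine div_le_div_of_nonneg_right ?_ (by positivity)
  rw [integral_div, integral_finsetSum X fun i _ =>
    ((B.integral_exp_neg_dist volume (p i) hr).1.const_mul _).integrableOn,
    div_le_iff₀ (by positivity), Finset.mul_sum, Finset.sum_mul]
  refine Finset.sum_le_sum fun i hi => ?_
  rw [integral_const_mul]
  refine (mul_le_mul_of_nonneg_left (setIntegral_bump_le hr hrr u (p i)) (hw i hi)).trans_eq ?_
  ring

theorem bavg_const (c : ℝ) {r : ℝ} (hr : 0 < r) (u : V d × ℝ) :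
    bavg (fun _ => c) r u = (volume (ball (0 : V d × ℝ) 1)).toReal * c := by
  have hf : Module.finrank ℝ (V d × ℝ) = d + 1 := by simp [Module.finrank_prod]
  rw [bavg, setIntegral_const, Measure.real, Measure.addHaar_closedBall _ _ hr.le, hf,
    ENNReal.toReal_mul, ENNReal.toReal_ofReal (by positivity), smul_eq_mul]
  field_simp

theorem bavg_mono {W W' : V d × ℝ → ℝ} (hW : Continuous W) (hW' : Continuous W') {r : ℝ}
    (hr : 0 ≤ r) (u : V d × ℝ) (h : ∀ u' ∈ closedBall u r, W u' ≤ W' u') :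
    bavg W r u ≤ bavg W' r u :=
  div_le_div_of_nonneg_right (setIntegral_mono_on
    (hW.continuousOn.integrableOn_compact (isCompact_closedBall u r))
    (hW'.continuousOn.integrableOn_compact (isCompact_closedBall u r))
    measurableSet_closedBall h) (by positivity)

theorem bavg_nonneg {W : V d × ℝ → ℝ} (h0 : ∀ u, 0 ≤ W u) {r : ℝ} (hr : 0 ≤ r) (u : V d × ℝ) :
    0 ≤ bavg W r u :=
  div_nonneg (integral_nonneg fun u' => h0 u') (by positivity)

theorem bavg_add {W W' : V d × ℝ → ℝ} (hW : Continuous W) (hW' : Continuous W') (r : ℝ)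
    (u : V d × ℝ) : bavg (fun u' => W u' + W' u') r u = bavg W r u + bavg W' r u := by
  rw [bavg, integral_add (hW.continuousOn.integrableOn_compact (isCompact_closedBall u r))
    (hW'.continuousOn.integrableOn_compact (isCompact_closedBall u r)), add_div]
  rfl

theorem bavg_const_mul (c : ℝ) (W : V d × ℝ → ℝ) (r : ℝ) (u : V d × ℝ) :
    bavg (fun u' => c * W u') r u = c * bavg W r u := by
  rw [bavg, integral_const_mul, mul_div_assoc]
  rfl

/-- one constant for all the bounds below -/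
theorem exists_dens_const (d : ℕ) : ∃ C : ℝ, 1 ≤ C ∧ ∀ (ι : Type) (X : Finset ι) (p : ι → V d × ℝ)
    (w : ι → ℝ), (∀ z ∈ X, 0 ≤ w z) →
    (∀ (r r' : ℝ) (u : V d × ℝ), 0 < r → r ≤ r' →
      bavg (dens X p w r) r' u ≤ C * dens X p w r' u ∧ bavg (vv X p w r) r' u ≤ C * vv X p w r' u) ∧
    ∀ R B r : ℝ, 1 ≤ R → 1 ≤ B → Reg R B X p w → Ssc (d + 1) R ^ 2 ≤ r →
      (∀ u, dens X p w r u ≤ C * B / Real.sqrt R) ∧
      Nice (vv X p w r) (C * B ^ (2 / ((d : ℝ) + 2)) / Ssc (d + 1) R ^ 2) r := by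
  obtain ⟨C₀, hC₀, hsh⟩ := exists_shell_const (d + 1)
  obtain ⟨C₁, hC₁, hb⟩ : ∃ C₁ : ℝ, 0 ≤ C₁ ∧ C₁ =
      Real.exp 2 * 2 ^ (d + 1) * ∫ x : V d × ℝ, Real.exp (-‖x‖) :=
    ⟨_, mul_nonneg (by positivity) (integral_nonneg fun _ => (Real.exp_pos _).le), rfl⟩
  obtain ⟨v, hv, hv'⟩ : ∃ v : ℝ, 0 ≤ v ∧ v = (volume (ball (0 : V d × ℝ) 1)).toReal :=
    ⟨_, ENNReal.toReal_nonneg, rfl⟩
  refine ⟨C₀ + C₁ + v, by linarith, fun ι X p w hw => ⟨fun r r' u hr hrr => ?_, ?_⟩⟩
  · have hr' : 0 < r' := hr.trans_le hrr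
    have h1 := bavg_dens_le (p := p) hw hr hrr u
    rw [← hb] at h1
    have hm := dens_nonneg (p := p) hw hr' u
    refine ⟨h1.trans (mul_le_mul_of_nonneg_right (by linarith) hm), ?_⟩
    have hvv := vv_nonneg (p := p) hw hr' u
    rcases hm.eq_or_lt with h0 | h0
    · have hz : ∀ i ∈ X, w i = 0 := by
        have h2 : ∑ i ∈ X, w i * Real.exp (-(dist u (p i) / r')) = 0 :=
          (div_eq_zero_iff.1 h0.symm).resolve_right (by positivity)
        intro i hi
        exact (mul_eq_zero.1 ((Finset.sum_eq_zero_iff_of_nonneg fun i hi =>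
          mul_nonneg (hw i hi) (Real.exp_pos _).le).1 h2 i hi)).resolve_right (Real.exp_pos _).ne'
      have : vv X p w r = fun _ => 0 := by
        ext u'
        rw [vv, dens, Finset.sum_eq_zero fun i hi => by rw [hz i hi, zero_mul], zero_div,
          Real.zero_rpow (gam_exp_pos d).ne']
      rw [this, bavg_const _ hr', mul_zero]
      positivity
    · have h3 : ∀ u', vv X p w r u' ≤
          vv X p w r' u + vv X p w r' u / dens X p w r' u * dens X p w r u' := fun u' => by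
        have hf := dens_nonneg (p := p) hw hr u'
        unfold vv
        generalize dens X p w r u' = f at hf
        generalize dens X p w r' u = m at h0
        have e : f ^ (2 / ((d : ℝ) + 2)) = m ^ (2 / ((d : ℝ) + 2)) * (f / m) ^ (2 / ((d : ℝ) + 2)) := by
          rw [← Real.mul_rpow h0.le (by positivity), mul_div_cancel₀ _ h0.ne']
        have g : (f / m) ^ (2 / ((d : ℝ) + 2)) ≤ 1 + f / m := by
          rcases le_total (f / m) 1 with h | h
          · exact (Real.rpow_le_one (by positivity) h (gam_exp_pos d).le).trans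
              (le_add_of_nonneg_right (by positivity))
          · exact (Real.rpow_le_self_of_one_le h (gam_exp_le_one d)).trans (by linarith)
        rw [e]
        refine (mul_le_mul_of_nonneg_left g (by positivity)).trans_eq ?_
        ring
      have hc : Continuous fun u' => vv X p w r' u / dens X p w r' u * dens X p w r u' :=
        continuous_const.mul (continuous_dens r)
      refine (bavg_mono (W' := fun u' => vv X p w r' u +
        vv X p w r' u / dens X p w r' u * dens X p w r u') (continuous_vv r)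
        (continuous_const.add hc) hr'.le u fun u' _ => h3 u').trans ?_
      rw [bavg_add continuous_const hc, bavg_const _ hr', bavg_const_mul, ← hv']
      have h4 := mul_le_mul_of_nonneg_left h1 (div_nonneg hvv hm)
      rw [mul_left_comm, div_mul_cancel₀ _ h0.ne'] at h4
      nlinarith
  · intro R B r hR hB hreg hr
    have hS := one_le_Ssc hR (d + 1)
    have hr1 : 1 ≤ r := (one_le_pow₀ hS).trans hr
    have hr0 : 0 < r := by linarith
    have hT : 0 < Real.sqrt R := by positivity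
    have h1 : ∀ u, dens X p w r u ≤ (C₀ + C₁ + v) * B / Real.sqrt R := fun u => by
      have := hsh _ ι X p w hw u r (B * (r ^ (d + 1) / Real.sqrt R)) hr0 (by positivity) fun k => by
        have hk : (1 : ℝ) ≤ k + 1 := by linarith [(Nat.cast_nonneg k : (0 : ℝ) ≤ k)]
        refine (hreg.2 u _ (by nlinarith)).trans_eq ?_
        rw [prd_eq_of_ge hR (by nlinarith), mul_pow]; ring
      rw [dens, div_le_iff₀ (by positivity)]
      refine this.trans ?_
      calc _ = C₀ * B / Real.sqrt R * r ^ (d + 1) := by ring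
        _ ≤ _ := by gcongr; linarith
    refine ⟨h1, continuous_vv r, fun u => ⟨vv_nonneg hw hr0 u, ?_⟩, vv_lip hw hr0⟩
    refine (Real.rpow_le_rpow (dens_nonneg hw hr0 u) (h1 u) (gam_exp_pos d).le).trans ?_
    rw [Real.div_rpow (by positivity) hT.le, Real.mul_rpow (by positivity) (by positivity),
      ← Ssc_pow (d := d) hR, ← Real.rpow_natCast, ← Real.rpow_mul (by positivity),
      show ((d + 2 : ℕ) : ℝ) * (2 / ((d : ℝ) + 2)) = (2 : ℕ) by push_cast; field_simp,
      Real.rpow_natCast]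
    gcongr
    exact Real.rpow_le_self_of_one_le (by linarith) (gam_exp_le_one d)

theorem continuous_line {W : V d × ℝ → ℝ} (hW : Continuous W) (β : Ph d) :
    Continuous fun t : ℝ => W (pos t β, t) := by
  unfold pos; fun_prop

theorem continuous_xray {W : V d × ℝ → ℝ} (hW : Continuous W) (t₁ t₂ : ℝ) :
    Continuous (xray W t₁ t₂) :=
  intervalIntegral.continuous_parametric_intervalIntegral_of_continuous'
    (f := fun (β : Ph d) (t : ℝ) => W (pos t β, t)) (by unfold pos Function.uncurry; fun_prop) t₁ t₂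

theorem xray_nonneg {W : V d × ℝ → ℝ} (h0 : ∀ u, 0 ≤ W u) {t₁ t₂ : ℝ} (h : t₁ ≤ t₂) (β : Ph d) :
    0 ≤ xray W t₁ t₂ β := intervalIntegral.integral_nonneg h fun _ _ => h0 _

theorem xray_le {W : V d × ℝ → ℝ} (hW : Continuous W) {Mx : ℝ} (hm : ∀ u, W u ≤ Mx) {t₁ t₂ : ℝ}
    (h : t₁ ≤ t₂) (β : Ph d) : xray W t₁ t₂ β ≤ Mx * (t₂ - t₁) := by
  refine (intervalIntegral.integral_mono_on h ((continuous_line hW β).intervalIntegrable _ _)
    (intervalIntegrable_const (c := Mx)) fun t _ => hm _).trans_eq ?_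
  rw [intervalIntegral.integral_const, smul_eq_mul, mul_comm]

theorem xray_mono {W W' : V d × ℝ → ℝ} (hW : Continuous W) (hW' : Continuous W') (h0 : ∀ u, 0 ≤ W' u)
    (hle : ∀ u, W u ≤ W' u) {t₁ t₂ s₁ s₂ : ℝ} (h₁ : s₁ ≤ t₁) (h : t₁ ≤ t₂) (h₂ : t₂ ≤ s₂) (β : Ph d) :
    xray W t₁ t₂ β ≤ xray W' s₁ s₂ β :=
  (intervalIntegral.integral_mono_on h ((continuous_line hW β).intervalIntegrable _ _)
    ((continuous_line hW' β).intervalIntegrable _ _) fun _ _ => hle _).trans
    (intervalIntegral.integral_mono_interval h₁ h h₂ (.of_forall fun _ => h0 _)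
      ((continuous_line hW' β).intervalIntegrable _ _))

theorem xray_close {W : V d × ℝ → ℝ} {Mx r : ℝ} (hW : Nice W Mx r) (hr : 0 < r) {t₁ t₂ s : ℝ}
    (h : t₁ ≤ t₂) {β β' : Ph d} (hc : ∀ t ∈ Icc t₁ t₂, ‖pos t (β - β')‖ ≤ s) :
    xray W t₁ t₂ β ≤ Real.exp (s / r) * xray W t₁ t₂ β' := by
  rw [xray, xray, ← intervalIntegral.integral_const_mul]
  refine intervalIntegral.integral_mono_on h ((continuous_line hW.1 β).intervalIntegrable _ _)
    ((continuous_const.mul (continuous_line hW.1 β')).intervalIntegrable _ _) fun t ht => ?_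
  refine (hW.2.2 _ (pos t β', t)).trans (mul_le_mul_of_nonneg_right ?_ (hW.2.1 _).1)
  have := hc t ht
  rw [pos_sub, ← dist_eq_norm] at this
  rw [dist_prod_same_right]
  gcongr

theorem xray_add_xray {W : V d × ℝ → ℝ} (hW : Continuous W) (t₁ t₂ t₃ : ℝ) (β : Ph d) :
    xray W t₁ t₂ β + xray W t₂ t₃ β = xray W t₁ t₃ β :=
  intervalIntegral.integral_add_adjacent_intervals ((continuous_line hW β).intervalIntegrable _ _)
    ((continuous_line hW β).intervalIntegrable _ _)

/-- the tripled windows of `n` consecutive windows of length `l` overlap three times -/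
theorem sum_xray_le {W : V d × ℝ → ℝ} (hW : Continuous W) (h0 : ∀ u, 0 ≤ W u) {l : ℝ} (hl : 0 < l)
    (k₁ k₂ : ℤ) (hk : k₁ ≤ k₂) (β : Ph d) :
    ∑ k ∈ Finset.Ico k₁ k₂, xray W ((k - 1) * l) ((k + 2) * l) β ≤
      3 * xray W ((k₁ - 1) * l) ((k₂ + 1) * l) β := by
  set g : ℝ → ℝ := fun s => xray W 0 (s * l) β with hg
  have h1 : ∀ s s' : ℝ, xray W (s * l) (s' * l) β = g s' - g s := fun s s' => by
    simp only [hg]; linarith [xray_add_xray hW 0 (s * l) (s' * l) β]
  have h2 : ∀ s s' : ℝ, s ≤ s' → g s ≤ g s' := fun s s' h => by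
    have := xray_nonneg h0 (mul_le_mul_of_nonneg_right h hl.le) β
    rw [h1] at this; linarith
  have h3 : ∀ k₂ : ℤ, k₁ ≤ k₂ → ∑ k ∈ Finset.Ico k₁ k₂, xray W ((k - 1) * l) ((k + 2) * l) β =
      (g (k₂ + 1) + g k₂ + g (k₂ - 1)) - (g (k₁ + 1) + g k₁ + g (k₁ - 1)) := by
    intro k₂ hk
    induction k₂, hk using Int.leInduction with
    | base => simp
    | succ n hn ih =>
      rw [← Finset.insert_Ico_right_eq_Ico_add_one hn, Finset.sum_insert (by simp), ih, h1]
      push_cast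
      rw [add_sub_cancel_right, show (n : ℝ) + 1 + 1 = n + 2 by ring]
      ring
  rw [h3 k₂ hk, h1]
  linarith [h2 k₂ (k₂ + 1) (by linarith), h2 (k₂ - 1) (k₂ + 1) (by linarith),
    h2 (k₁ - 1) k₁ (by linarith), h2 (k₁ - 1) (k₁ + 1) (by linarith)]

theorem continuous_bavg {W : V d × ℝ → ℝ} (hW : Continuous W) (r : ℝ) : Continuous (bavg W r) := by
  have h : bavg W r = fun u => (∫ v in closedBall (0 : V d × ℝ) r, W (u + v)) / r ^ (d + 1) := by
    ext u
    rw [bavg, ← integral_indicator measurableSet_closedBall,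
      ← integral_indicator measurableSet_closedBall,
      ← integral_add_left_eq_self ((closedBall u r).indicator W) u]
    congr 2
    ext v
    simp [indicator]
  rw [h]
  exact (continuous_parametric_integral_of_continuous (f := fun u v : V d × ℝ => W (u + v))
    (by unfold Function.uncurry; fun_prop) (isCompact_closedBall 0 r)).div_const _

theorem continuous_lw {Λ : Finset (V d)} {W : V d → V d × ℝ → ℝ} (hW : ∀ ζ ∈ Λ, Continuous (W ζ))
    (K t₁ t₂ : ℝ) : Continuous (lw Λ K W t₁ t₂) :=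
  continuous_finsetSum Λ fun ζ hζ => Continuous.mul (by fun_prop) (continuous_xray (hW ζ hζ) t₁ t₂)

theorem integrable_weight {W : Ph d → ℝ} (hW : Measurable W) {Wm : ℝ} (hm : ∀ β, |W β| ≤ Wm)
    {c : Ph d → ℂ} (hc : MemLp c 2 volume) : Integrable fun β => W β * ‖c β‖ ^ 2 :=
  (hc.integrable_norm_pow two_ne_zero).bdd_mul (c := Wm) hW.aestronglyMeasurable (.of_forall hm)

theorem sig_le_two {a a' t t' : ℝ} (ha : 0 < a) (haa : a ≤ a') (ht : |t - t'| ≤ 2 * a' ^ 2) :
    sig a t a' t' ≤ 20 * a' ^ 4 := by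
  have h1 : a ^ 2 ≤ a' ^ 2 := by gcongr
  have h2 : (t - t') ^ 2 ≤ (2 * a' ^ 2) ^ 2 := by rw [← sq_abs]; gcongr
  have : (a ^ 2 + a' ^ 2) ^ 2 ≤ (2 * a' ^ 2) ^ 2 := by gcongr; linarith
  unfold sig
  nlinarith

theorem Qf_ge_two {a a' t t' : ℝ} (ha : 0 < a) (haa : a ≤ a') (ht : |t - t'| ≤ 2 * a' ^ 2)
    (Δ : Ph d) :
    ‖pos t Δ‖ ^ 2 / (20 * a' ^ 2) + a ^ 2 * ‖Δ.2‖ ^ 2 / 20 ≤ Qf a t a' t' Δ := by
  have ha' : 0 < a' := ha.trans_le haa
  have hs := sig_pos (a' := a') ha t t'
  have h3 := sig_le_two ha haa ht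
  calc _ = (a' ^ 2 * ‖pos t Δ‖ ^ 2 + a ^ 2 * a' ^ 2 * a' ^ 2 * ‖Δ.2‖ ^ 2) / (20 * a' ^ 4) := by
        field_simp
    _ ≤ _ := by
        unfold Qf
        gcongr
        · exact le_add_of_nonneg_right (by positivity)
        · exact le_add_of_nonneg_left (by positivity)

theorem pre_sq_ge {a a' t t' : ℝ} (ha : 0 < a) (haa : a ≤ a') (ht : |t - t'| ≤ 2 * a' ^ 2) :
    (a ^ 2 / (5 * a' ^ 2)) ^ ((d : ℝ) / 2) ≤ pre d a t a' t' ^ 2 := by
  have ha' : 0 < a' := ha.trans_le haa
  have hs := sig_pos (a' := a') ha t t'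
  have h3 := sig_le_two ha haa ht
  rw [pre, ← Real.rpow_natCast (_ ^ ((d : ℝ) / 4)), ← Real.rpow_mul (by positivity),
    show (d : ℝ) / 4 * (2 : ℕ) = d / 2 by push_cast; ring]
  refine Real.rpow_le_rpow (by positivity) ?_ (by positivity)
  calc _ = 4 * a ^ 2 * a' ^ 2 / (20 * a' ^ 4) := by field_simp; ring
    _ ≤ _ := by gcongr

theorem norm_pt (z : V d × ℝ) : ‖pt z‖ = 1 := norm_gam one_pos _ _

theorem En_nonneg (hw : ∀ z ∈ X, 0 ≤ w z) (H : ι → L2 d) : 0 ≤ En X p w H :=
  Finset.sum_nonneg fun z hz => mul_nonneg (hw z hz) (sq_nonneg _)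

theorem En_add_le (hw : ∀ z ∈ X, 0 ≤ w z) (H H' : ι → L2 d) :
    En X p w (fun z => H z + H' z) ≤ 2 * En X p w H + 2 * En X p w H' := by
  unfold En
  rw [Finset.mul_sum, Finset.mul_sum, ← Finset.sum_add_distrib]
  refine Finset.sum_le_sum fun z hz => ?_
  rw [inner_add_right]
  have h := pow_le_pow_left₀ (norm_nonneg _)
    (norm_add_le (inner ℂ (pt (p z)) (H z)) (inner ℂ (pt (p z)) (H' z))) 2
  have h' := sq_nonneg (‖inner ℂ (pt (p z)) (H z)‖ - ‖inner ℂ (pt (p z)) (H' z)‖)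
  nlinarith [hw z hz]

theorem En_le_mass (hw : ∀ z ∈ X, 0 ≤ w z) (H : ι → L2 d) {e : ℝ} (he : ∀ z ∈ X, ‖H z‖ ^ 2 ≤ e) :
    En X p w H ≤ (∑ z ∈ X, w z) * e := by
  rw [En, Finset.sum_mul]
  refine Finset.sum_le_sum fun z hz => mul_le_mul_of_nonneg_left (le_trans ?_ (he z hz)) (hw z hz)
  have := norm_inner_le_norm (𝕜 := ℂ) (pt (p z)) (H z)
  rw [norm_pt, one_mul] at this
  gcongr

theorem En_mono (hw : ∀ z ∈ X, 0 ≤ w z) {X' : Finset ι} (h : X' ⊆ X) (H : ι → L2 d) :
    En X' p w H ≤ En X p w H :=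
  Finset.sum_le_sum_of_subset_of_nonneg h fun z hz _ => mul_nonneg (hw z hz) (sq_nonneg _)

end Crest.Agent.N76.II
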