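import Crest.Agent.N76.II.PDefs
import Crest.Agent.N76.G.Tail
import Crest.Agent.N76.G.Hilb

/-! # Row 76 (S0101): lossless localisation of a Bessel inequality (`LB`, helper61). -/

set_option autoImplicit false

open MeasureTheory Set Metric
open scoped ENNReal RealInnerProductSpace ComplexConjugate

namespace Crest.Agent.N76.II

open Crest.Agent.N76.Red (V ph)
open Crest.Agent.N76.G

variable {d : ℕ}

namespace LB

/-- exact shift for an exponential weight in the direction variable -/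
theorem shift_mom {a : ℝ} (ha : 0 < a) (t : ℝ) (v : V d) :
    ∃ u : Ph d → ℂ, Continuous u ∧ (∀ β, ‖u β‖ = 1) ∧
      ∀ a' : ℝ, 0 < a' → ∀ (t' : ℝ) (β' : Ph d), ∃ c : ℂ,
        ‖c‖ = Real.exp (‖v‖ ^ 2 * (Real.pi * (1 / a ^ 2 + 1 / a' ^ 2))) ∧
        ∀ β : Ph d,
          (Real.exp (2 * Real.pi * ⟪v, (β - β').2⟫) : ℂ) * inner ℂ (gam a t β) (gam a' t' β') =
            u β * c * inner ℂ (gam a t (β + ((2 * t * (-1 / a ^ 2)) • v, (-1 / a ^ 2) • v)))
              (gam a' t' (β' + ((2 * t' * (1 / a' ^ 2)) • v, (1 / a' ^ 2) • v))) := by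
  obtain ⟨q, hq⟩ : ∃ q : ℝ, q = -1 / a ^ 2 := ⟨_, rfl⟩
  rw [← hq]
  have e0 : a ^ 2 * q = -1 := by rw [hq]; field_simp
  refine ⟨fun β => Complex.exp (((-(4 * Real.pi * t * q) * ⟪v, β.2⟫ : ℝ) : ℂ) * Complex.I),
    by fun_prop, fun β => Complex.norm_exp_ofReal_mul_I _, fun a' ha' t' β' => ?_⟩
  obtain ⟨q', hq'⟩ : ∃ q' : ℝ, q' = 1 / a' ^ 2 := ⟨_, rfl⟩
  rw [← hq']
  have e1 : a' ^ 2 * q' = 1 := by rw [hq']; field_simp
  have hS := re_sig_pos ha ha' t t'
  obtain ⟨l, hl⟩ : ∃ l : ℝ, l = 2 * t * q - 2 * t' * q' := ⟨_, rfl⟩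
  refine ⟨Complex.exp ((((4 * Real.pi * t * q - 2 * Real.pi * l) * ⟪v, β'.2⟫ : ℝ) : ℂ) *
    Complex.I + ((‖v‖ ^ 2 : ℝ) : ℂ) * (Real.pi * (((a : ℂ) ^ 2 - 2 * t * Complex.I) * (q - q') ^ 2 +
      (Complex.I * q') ^ 2 * (((a : ℂ) ^ 2 - 2 * t * Complex.I) +
        ((a' : ℂ) ^ 2 + 2 * t' * Complex.I))) - 2 * Real.pi * Complex.I * l * q')), ?_, fun β => ?_⟩
  · rw [Complex.norm_exp, Complex.add_re, Complex.re_ofReal_mul, Complex.re_ofReal_mul,
      Complex.I_re, mul_zero, zero_add]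
    congr 2
    have h1 : 1 / a ^ 2 = -q := by rw [hq]; ring
    rw [h1]
    simp only [sq, Complex.sub_re, Complex.mul_re, Complex.add_re, Complex.ofReal_re,
      Complex.ofReal_im, Complex.I_re, Complex.I_im, Complex.mul_im, Complex.re_ofNat,
      Complex.im_ofNat, Complex.add_im, Complex.sub_im]
    linear_combination (Real.pi * (q - 2 * q')) * e0 - (Real.pi * q') * e1
  · rw [inner_gam ha ha', inner_gam ha ha']
    have f1 : (β + ((2 * t * q) • v, q • v)).2 - (β' + ((2 * t' * q') • v, q' • v)).2 =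
        (β.2 - β'.2) + (q - q') • v := by simp only [Prod.snd_add, sub_smul]; abel
    have f2 : (β + ((2 * t * q) • v, q • v)).1 - (β' + ((2 * t' * q') • v, q' • v)).1 =
        (β.1 - β'.1) + l • v := by simp only [Prod.fst_add, hl, sub_smul]; abel
    have f3 : ⟪v, β.2⟫ = ⟪v, β.2 - β'.2⟫ + ⟪v, β'.2⟫ := by rw [← inner_add_right, sub_add_cancel]
    beta_reduce
    rw [f1, f2, Prod.snd_add, Prod.snd_sub, f3]
    generalize β.2 - β'.2 = δ
    generalize β.1 - β'.1 = y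
    simp only [norm_add_sq_real, inner_add_left, inner_add_right, inner_smul_left,
      inner_smul_right, norm_smul, mul_pow, Real.norm_eq_abs, sq_abs, conj_trivial,
      real_inner_self_eq_norm_sq, real_inner_comm v]
    rw [Complex.ofReal_exp, mul_left_comm, ← Complex.exp_add, ← Complex.exp_add, mul_left_comm,
      ← Complex.exp_add]
    congr 2
    set A : ℂ := (a : ℂ) ^ 2 - 2 * t * Complex.I with hA
    set A' : ℂ := (a' : ℂ) ^ 2 + 2 * t' * Complex.I with hA'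
    have hS0 : A + A' ≠ 0 := fun h => by rw [h] at hS; simp at hS
    have c0 : (a : ℂ) ^ 2 * q = -1 := by exact_mod_cast e0
    have c1 : (a' : ℂ) ^ 2 * q' = 1 := by exact_mod_cast e1
    have c4 : (l : ℂ) = Complex.I * A * (q - q') + (Complex.I * q') * (A + A') := by
      rw [hl, hA, hA']
      push_cast
      linear_combination (2 * t * q - 2 * t' * q') * Complex.I_sq - Complex.I * (c0 + c1)
    have c5 : ∀ D X Y x₁ x₂ n : ℂ, Real.pi * (-(A * A') * (D + 2 * ((q - q') * x₂) + (q - q') ^ 2 * n)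
        + 2 * Complex.I * A * (X + (q - q') * x₁ + l * (x₂ + (q - q') * n))
        - (Y + 2 * (l * x₁) + l ^ 2 * n)) / (A + A') =
        Real.pi * (-(A * A') * D + 2 * Complex.I * A * X - Y) / (A + A') +
        Real.pi * (x₂ * (-2 * A * (q - q') + 2 * Complex.I * A * (Complex.I * q')) -
          2 * (Complex.I * q') * x₁ -
          n * (A * (q - q') ^ 2 + (Complex.I * q') ^ 2 * (A + A'))) := by
      intro D X Y x₁ x₂ n
      rw [c4]
      field_simp
      linear_combination (A ^ 2 * (q - q') * (2 * x₂ + (q - q') * n)) * Complex.I_sq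
    push_cast
    rw [c5]
    linear_combination 2 * Real.pi * (⟪v, δ⟫ : ℝ) * c0 +
      (⟪v, δ⟫ : ℝ) * (-2 * Real.pi * A * q') * Complex.I_sq +
      (⟪v, δ⟫ : ℝ) * (2 * Real.pi * q) * hA

theorem half_sq_le (x y : V d) : ‖x‖ ^ 2 / 2 - ‖y‖ ^ 2 ≤ ‖x + y‖ ^ 2 := by
  have h : ‖x‖ ≤ ‖x + y‖ + ‖y‖ := by simpa using norm_sub_le (x + y) y
  nlinarith [pow_le_pow_left₀ (norm_nonneg _) h 2, sq_nonneg (‖x + y‖ - ‖y‖)]

theorem pos_add (t : ℝ) (Δ δ : Ph d) : pos t (Δ + δ) = pos t Δ + pos t δ := by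
  simp only [pos, Prod.fst_add, Prod.snd_add, smul_add]; abel

theorem Qf_add_ge {a a' : ℝ} (ha : 0 < a) (t t' : ℝ) (Δ δ : Ph d) :
    Qf a t a' t' Δ / 2 - Qf a t a' t' δ ≤ Qf a t a' t' (Δ + δ) := by
  have hs := sig_pos (a' := a') ha t t'
  simp only [Qf, pos_add, Prod.snd_add]
  rw [div_right_comm, ← sub_div]
  refine div_le_div_of_nonneg_right ?_ hs.le
  nlinarith [mul_le_mul_of_nonneg_left (half_sq_le (pos t Δ) (pos t δ)) (sq_nonneg a'),
    mul_le_mul_of_nonneg_left (half_sq_le (pos t' Δ) (pos t' δ)) (sq_nonneg a),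
    mul_le_mul_of_nonneg_left (half_sq_le Δ.2 δ.2)
      (show 0 ≤ a ^ 2 * a' ^ 2 * (a ^ 2 + a' ^ 2) by positivity)]

theorem Qf_shift_le {K A : ℝ} (hK : 0 < K) (t t' : ℝ) (w q q' : V d) (hq : K ^ 2 * ‖q‖ ^ 2 ≤ A)
    (hq' : K ^ 2 * ‖q'‖ ^ 2 ≤ A) :
    Qf K t K t' ((((2 * t) • q + w, q) : Ph d) - ((2 * t') • q' + w, q')) ≤ 4 * A := by
  have hA : 0 ≤ A := le_trans (by positivity) hq
  have h1 : pos t ((((2 * t) • q + w, q) : Ph d) - ((2 * t') • q' + w, q')) =
      (2 * (t - t')) • q' := by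
    simp only [pos, Prod.fst_sub, Prod.snd_sub]; module
  have h2 : pos t' ((((2 * t) • q + w, q) : Ph d) - ((2 * t') • q' + w, q')) =
      (2 * (t - t')) • q := by
    simp only [pos, Prod.fst_sub, Prod.snd_sub]; module
  have h3 : ‖q - q'‖ ^ 2 ≤ 2 * ‖q‖ ^ 2 + 2 * ‖q'‖ ^ 2 := by
    nlinarith [pow_le_pow_left₀ (norm_nonneg _) (norm_sub_le q q') 2, sq_nonneg (‖q‖ - ‖q'‖)]
  rw [Qf, div_le_iff₀ (sig_pos hK t t'), h1, h2, sig, norm_smul, norm_smul, mul_pow, mul_pow,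
    Real.norm_eq_abs, sq_abs, Prod.snd_sub]
  have h4 : K ^ 2 * ‖q - q'‖ ^ 2 ≤ 4 * A := by nlinarith [sq_nonneg K]
  nlinarith [mul_le_mul_of_nonneg_left hq (sq_nonneg (t - t')),
    mul_le_mul_of_nonneg_left hq' (sq_nonneg (t - t')),
    mul_le_mul_of_nonneg_left h4 (show 0 ≤ K ^ 4 by positivity),
    mul_nonneg hA (sq_nonneg (t - t')), mul_nonneg hA (show 0 ≤ K ^ 4 by positivity)]

/-- Bessel inequality with an exponential weight `exp (E (β - β₀))`. -/
theorem shift_bessel {κ : Type} (s : Finset κ) (u : κ → V d × ℝ) (ζ : V d) {K a μ A B B' : ℝ}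
    (t : ℝ) (hK : 0 < K) (ha : 0 < a) (hμ : 0 ≤ μ)
    (hG : ∀ k ∈ s, ∑ k' ∈ s, Gs K (Real.pi / 2) (u k) (u k') ζ ≤ μ)
    (E : Ph d → ℝ) (hE : ∀ β β', E (β + β') = E β + E β') (β₀ δ₀ : Ph d) (w : V d)
    (U : Ph d → ℂ) (hU : Continuous U) (hU1 : ∀ β, ‖U β‖ = 1)
    (hs : ∀ k ∈ s, E (lin (u k) ζ - β₀) ≤ B' ∧ ∃ (q : V d) (c : ℂ), K ^ 2 * ‖q‖ ^ 2 ≤ A ∧
      ‖c‖ ≤ Real.exp B ∧ ∀ β, (Real.exp (E (β - lin (u k) ζ)) : ℂ) *
        inner ℂ (gam a t β) (gam K (u k).2 (lin (u k) ζ)) = U β * c * inner ℂ (gam a t (β + δ₀))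
          (gam K (u k).2 (lin (u k) ζ + ((2 * (u k).2) • q + w, q))))
    {g : Ph d → ℂ} (hg : MemLp g 2 volume)
    (hg' : MemLp (fun β => (Real.exp (E (β - β₀)) : ℂ) * g β) 2 volume) :
    ∑ k ∈ s, ‖co K (u k).2 (syn a t fun β => (Real.exp (E (β - β₀)) : ℂ) * g β)
        (lin (u k) ζ)‖ ^ 2 ≤ Real.exp (2 * B + 2 * B' + 4 * Real.pi * A) * μ * ∫ β, ‖g β‖ ^ 2 := by
  choose! hB q c hq hc hid using hs
  let g' : Ph d → ℂ := fun β => conj (U (β - δ₀)) * g (β - δ₀)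
  have hn : ∀ β, ‖g' β‖ = ‖g (β - δ₀)‖ := fun β => by
    simp only [g', norm_mul, Complex.norm_conj, hU1, one_mul]
  have hg1 : MemLp (fun β => g (β - δ₀)) 2 volume :=
    hg.comp_measurePreserving (measurePreserving_sub_right volume δ₀)
  have hg2 : MemLp g' 2 volume :=
    hg1.of_le ((by fun_prop : Continuous fun β => conj (U (β - δ₀))).aestronglyMeasurable.mul
      hg1.1) (.of_forall fun β => (hn β).le)
  let ψ : κ → L2 d := fun k => gam K (u k).2 (lin (u k) ζ + ((2 * (u k).2) • q k + w, q k))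
  have h1 : ∀ k ∈ s, co K (u k).2 (syn a t fun β => (Real.exp (E (β - β₀)) : ℂ) * g β)
      (lin (u k) ζ) =
      (Real.exp (E (lin (u k) ζ - β₀)) : ℂ) * conj (c k) * inner ℂ (ψ k) (syn a t g') := by
    intro k hk
    rw [co, inner_syn ha t hg', inner_syn ha t hg2, ← integral_const_mul,
      ← integral_sub_right_eq_self
      (fun β => inner ℂ (gam K (u k).2 (lin (u k) ζ)) (gam a t β) *
        ((Real.exp (E (β - β₀)) : ℂ) * g β)) δ₀]
    refine integral_congr_ae (.of_forall fun β => ?_)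
    have h2 := congrArg conj (hid k hk (β - δ₀))
    simp only [map_mul, Complex.conj_ofReal, inner_conj_symm, sub_add_cancel] at h2
    have h3 : E (β - δ₀ - β₀) = E (β - δ₀ - lin (u k) ζ) + E (lin (u k) ζ - β₀) := by
      rw [← hE]; congr 1; abel
    simp only [sub_add_cancel, g', h3, Real.exp_add, Complex.ofReal_mul]
    linear_combination (Real.exp (E (lin (u k) ζ - β₀)) : ℂ) * g (β - δ₀) * h2
  have h2 := bessel_schur s ψ (fun _ => 1) (fun _ _ => zero_le_one)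
    (D := Real.exp (4 * Real.pi * A) * μ) (by positivity) (fun k hk => by
      refine le_trans ?_ (mul_le_mul_of_nonneg_left (hG k hk) (Real.exp_pos _).le)
      rw [Finset.mul_sum]
      refine Finset.sum_le_sum fun k' hk' => ?_
      rw [one_mul, norm_inner_gam hK hK, Gs, mul_left_comm, ← Real.exp_add, add_sub_add_comm]
      refine mul_le_mul_of_nonneg_left (Real.exp_le_exp.2 ?_) (pre_pos hK hK _ _).le
      have h3 := (Qf_add_ge (a' := K) hK (u k).2 (u k').2 (lin (u k) ζ - lin (u k') ζ) _).trans'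
        (sub_le_sub_left (Qf_shift_le hK (u k).2 (u k').2 w _ _ (hq k hk) (hq k' hk')) _)
      nlinarith [Real.pi_pos]) (syn a t g')
  have h3 : ‖syn a t g'‖ ^ 2 ≤ ∫ β, ‖g β‖ ^ 2 := by
    refine (norm_syn_sq_le ha t hg2).trans (le_of_eq ?_)
    simp only [hn]
    exact integral_sub_right_eq_self (fun β => ‖g β‖ ^ 2) δ₀
  calc _ ≤ ∑ k ∈ s, Real.exp (2 * B + 2 * B') * (1 * ‖inner ℂ (ψ k) (syn a t g')‖ ^ 2) := by
        refine Finset.sum_le_sum fun k hk => ?_
        rw [h1 k hk, norm_mul, norm_mul, mul_pow, one_mul, Complex.norm_conj, Complex.norm_real,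
          Real.norm_of_nonneg (Real.exp_pos _).le]
        refine mul_le_mul_of_nonneg_right ?_ (sq_nonneg _)
        rw [show 2 * B + 2 * B' = (2 : ℕ) * (B' + B) by push_cast; ring, Real.exp_nat_mul,
          Real.exp_add]
        have := Real.exp_le_exp.2 (hB k hk)
        have := hc k hk
        gcongr
    _ ≤ Real.exp (2 * B + 2 * B') * (Real.exp (4 * Real.pi * A) * μ * ∫ β, ‖g β‖ ^ 2) := by
        rw [← Finset.mul_sum]
        exact mul_le_mul_of_nonneg_left (h2.trans (mul_le_mul_of_nonneg_left h3 (by positivity)))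
          (Real.exp_pos _).le
    _ = _ := by rw [Real.exp_add _ (4 * Real.pi * A)]; ring

theorem integrable_weight {c : Ph d → ℂ} (hc : MemLp c 2 volume) {w : Ph d → ℝ} {M : ℝ}
    (hw : Measurable w) (h : ∀ β, 0 ≤ w β ∧ w β ≤ M) :
    Integrable fun β => w β * ‖c β‖ ^ 2 :=
  ((memLp_two_iff_integrable_sq_norm hc.1).1 hc).bdd_mul (c := M) hw.aestronglyMeasurable
    (.of_forall fun β => by rw [Real.norm_of_nonneg (h β).1]; exact (h β).2)

/-- division by a sum of exponential weights -/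
theorem tile {κ ι : Type} [Fintype ι] (s : Finset κ) (ψ : κ → L2 d) {a B : ℝ} (t : ℝ)
    (ha : 0 < a) (hB : 0 ≤ B) (e : ι → Ph d → ℝ) (he : ∀ i, Continuous (e i))
    (he0 : ∀ i β, 0 ≤ e i β) (w : Ph d → ℝ) (hw : Measurable w) (hw1 : ∀ β, 0 ≤ w β ∧ w β ≤ 1)
    (h1 : ∀ β, 1 ≤ ∑ i, e i β) (h2 : ∀ β, 1 ≤ w β * (∑ i, e i β) ^ 2)
    (h : ∀ i (g : Ph d → ℂ), MemLp g 2 volume → MemLp (fun β => (e i β : ℂ) * g β) 2 volume →
      ∑ k ∈ s, ‖inner ℂ (ψ k) (syn a t fun β => (e i β : ℂ) * g β)‖ ^ 2 ≤ B * ∫ β, ‖g β‖ ^ 2)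
    {c : Ph d → ℂ} (hc : MemLp c 2 volume) :
    ∑ k ∈ s, ‖inner ℂ (ψ k) (syn a t c)‖ ^ 2 ≤
      (Fintype.card ι : ℝ) ^ 2 * B * ∫ β, w β * ‖c β‖ ^ 2 := by
  let F : Ph d → ℝ := fun β => ∑ i, e i β
  have hF : ∀ β, 0 < F β := fun β => one_pos.trans_le (h1 β)
  have hFc : Continuous F := continuous_finsetSum _ fun i _ => he i
  let g : Ph d → ℂ := fun β => (((F β)⁻¹ : ℝ) : ℂ) * c β
  have hn : ∀ β, ‖g β‖ = (F β)⁻¹ * ‖c β‖ := fun β => by
    simp only [g, norm_mul, Complex.norm_real, Real.norm_of_nonneg (inv_pos.2 (hF β)).le]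
  have hgm : AEStronglyMeasurable g volume :=
    (Complex.continuous_ofReal.comp (hFc.inv₀ fun β => (hF β).ne')).aestronglyMeasurable.mul hc.1
  have hg : MemLp g 2 volume := hc.of_le hgm (.of_forall fun β => by
    rw [hn]; exact mul_le_of_le_one_left (norm_nonneg _) (inv_le_one_of_one_le₀ (h1 β)))
  have hg' : ∀ i, MemLp (fun β => (e i β : ℂ) * g β) 2 volume := fun i =>
    hc.of_le ((Complex.continuous_ofReal.comp (he i)).aestronglyMeasurable.mul hgm)
      (.of_forall fun β => by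
        rw [norm_mul, hn, Complex.norm_real, Real.norm_of_nonneg (he0 i β), ← mul_assoc]
        refine mul_le_of_le_one_left (norm_nonneg _) ?_
        rw [← div_eq_mul_inv, div_le_one (hF β)]
        exact Finset.single_le_sum (fun i _ => he0 i β) (Finset.mem_univ i))
  have h3 : c = ∑ i, fun β => (e i β : ℂ) * g β := by
    funext β
    rw [Finset.sum_apply, ← Finset.sum_mul, ← Complex.ofReal_sum, ← mul_assoc, ← Complex.ofReal_mul,
      mul_inv_cancel₀ (hF β).ne', Complex.ofReal_one, one_mul]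
  have h4 : ∫ β, ‖g β‖ ^ 2 ≤ ∫ β, w β * ‖c β‖ ^ 2 := by
    refine integral_mono ((memLp_two_iff_integrable_sq_norm hg.1).1 hg)
      (integrable_weight hc hw hw1) fun β => ?_
    simp only [hn, mul_pow]
    refine mul_le_mul_of_nonneg_right ?_ (sq_nonneg _)
    rw [inv_pow, inv_le_iff_one_le_mul₀ (pow_pos (hF β) 2)]
    exact h2 β
  calc _ ≤ ∑ k ∈ s, (Fintype.card ι : ℝ) *
          ∑ i, ‖inner ℂ (ψ k) (syn a t fun β => (e i β : ℂ) * g β)‖ ^ 2 := by
        refine Finset.sum_le_sum fun k _ => ?_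
        conv_lhs => rw [h3, syn_sum ha t _ fun i _ => hg' i, inner_sum]
        exact (pow_le_pow_left₀ (norm_nonneg _) (norm_sum_le _ _) 2).trans
          sq_sum_le_card_mul_sum_sq
    _ ≤ (Fintype.card ι : ℝ) * ∑ _i : ι, B * ∫ β, w β * ‖c β‖ ^ 2 := by
        rw [← Finset.mul_sum, Finset.sum_comm]
        exact mul_le_mul_of_nonneg_left (Finset.sum_le_sum fun i _ =>
          (h i g hg (hg' i)).trans (mul_le_mul_of_nonneg_left h4 hB)) (Nat.cast_nonneg _)
    _ = _ := by rw [Finset.sum_const, Finset.card_univ, nsmul_eq_mul]; ring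

/-- sign vectors -/
noncomputable def sg (ε : Fin d → Bool) : V d := WithLp.toLp 2 fun j => if ε j then 1 else -1

/-- the `ℓ¹` norm -/
noncomputable def l1 (z : V d) : ℝ := ∑ j, |z j|

theorem norm_sq_sg (ε : Fin d → Bool) : ‖sg ε‖ ^ 2 = d := by
  rw [EuclideanSpace.real_norm_sq_eq]
  have : ∀ j, (sg ε j) ^ 2 = 1 := fun j => by simp only [sg]; split_ifs <;> norm_num
  simp [this]

theorem inner_sg_le (ε : Fin d → Bool) (z : V d) : ⟪sg ε, z⟫ ≤ l1 z := by
  simp only [PiLp.inner_apply, RCLike.inner_apply, conj_trivial, l1, sg]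
  refine Finset.sum_le_sum fun j _ => ?_
  split_ifs
  · simpa using le_abs_self _
  · simpa using neg_le_abs _

theorem exists_sg (z : V d) : ∃ ε, ⟪sg ε, z⟫ = l1 z := by
  refine ⟨fun j => decide (0 ≤ z j), ?_⟩
  simp only [PiLp.inner_apply, RCLike.inner_apply, conj_trivial, l1, sg, decide_eq_true_eq]
  refine Finset.sum_congr rfl fun j _ => ?_
  split_ifs with h
  · rw [abs_of_nonneg h, mul_one]
  · rw [abs_of_neg (not_le.1 h), mul_neg, mul_one]

theorem norm_le_l1 (z : V d) : ‖z‖ ≤ l1 z := by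
  refine le_of_sq_le_sq ?_ (Finset.sum_nonneg fun _ _ => abs_nonneg _)
  rw [EuclideanSpace.real_norm_sq_eq]
  simpa only [sq_abs, l1] using
    Finset.sum_sq_le_sq_sum_of_nonneg (s := Finset.univ) (f := fun j => |z j|)
      fun _ _ => abs_nonneg _

theorem l1_nonneg (z : V d) : 0 ≤ l1 z := (norm_nonneg _).trans (norm_le_l1 z)

theorem continuous_l1 : Continuous (l1 : V d → ℝ) := by unfold l1; fun_prop

theorem exists_sum_int : ∃ C : ℝ, 0 ≤ C ∧ ∀ (x : ℝ) (S : Finset ℤ),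
    ∑ n ∈ S, Real.exp (-|x - n|) ≤ C := by
  have hs : Summable fun n : ℤ => Real.exp (-|(n : ℝ)|) :=
    .of_nat_of_neg (by simpa using Real.summable_exp_neg_nat)
      (by simpa using Real.summable_exp_neg_nat)
  refine ⟨Real.exp 1 * ∑' n : ℤ, Real.exp (-|(n : ℝ)|),
    mul_nonneg (Real.exp_pos _).le (tsum_nonneg fun _ => (Real.exp_pos _).le), fun x S => ?_⟩
  have h1 := (hs.comp_injective (sub_left_injective (b := ⌊x⌋))).sum_le_tsum S
    fun _ _ => (Real.exp_pos _).le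
  have h2 := (Equiv.subRight ⌊x⌋).tsum_eq fun n : ℤ => Real.exp (-|(n : ℝ)|)
  refine le_trans ?_ (mul_le_mul_of_nonneg_left (h1.trans_eq h2) (Real.exp_pos _).le)
  rw [Finset.mul_sum]
  refine Finset.sum_le_sum fun n _ => ?_
  rw [← Real.exp_add]
  refine Real.exp_le_exp.2 ?_
  have h3 := Int.floor_le x
  have h4 := Int.lt_floor_add_one x
  beta_reduce
  have h5 : |((n - ⌊x⌋ : ℤ) : ℝ)| ≤ |x - n| + 1 := by
    push_cast
    rw [abs_le]
    constructor <;> linarith [le_abs_self (x - n), neg_abs_le (x - n)]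
  linarith

theorem exists_sum_lattice (d : ℕ) : ∃ C : ℝ, 0 ≤ C ∧ ∀ (x : Fin d → ℝ) (T : Finset (Fin d → ℤ)),
    ∑ τ ∈ T, Real.exp (-∑ j, |x j - τ j|) ≤ C := by
  classical
  obtain ⟨C, hC, h⟩ := exists_sum_int
  refine ⟨C ^ d, by positivity, fun x T => ?_⟩
  calc _ ≤ ∑ τ ∈ Fintype.piFinset fun j => T.image fun τ => τ j,
          ∏ j, Real.exp (-|x j - τ j|) := by
        simp only [← Real.exp_sum, Finset.sum_neg_distrib]
        exact Finset.sum_le_sum_of_subset_of_nonneg (fun τ hτ => Fintype.mem_piFinset.2 fun j =>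
          Finset.mem_image_of_mem _ hτ) fun _ _ _ => (Real.exp_pos _).le
    _ = ∏ j, ∑ n ∈ T.image fun τ => τ j, Real.exp (-|x j - n|) :=
        (Finset.prod_univ_sum _ fun j (n : ℤ) => Real.exp (-|x j - n|)).symm
    _ ≤ ∏ _j : Fin d, C := Finset.prod_le_prod
        (fun _ _ => Finset.sum_nonneg fun _ _ => (Real.exp_pos _).le) fun j _ => h _ _
    _ = _ := by simp

/-- the estimate for one tile with centre `P` -/
theorem one_tile {κ : Type} (s : Finset κ) (u : κ → V d × ℝ) (ζ P : V d) {K r a t t₀ μ : ℝ}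
    (hK : 0 < K) (hKa : K ≤ a) (hr : K * a ≤ r) (ht : |t - t₀| ≤ 2 * a ^ 2)
    (hu : ∀ k ∈ s, |(u k).2 - t₀| ≤ 2 * r) (hμ : 0 ≤ μ)
    (hG : ∀ k ∈ s, ∑ k' ∈ s, Gs K (Real.pi / 2) (u k) (u k') ζ ≤ μ)
    (hP : ∀ k ∈ s, K / r * l1 (pos t₀ (lin (u k) ζ) - P) ≤ d)
    {c : Ph d → ℂ} (hc : MemLp c 2 volume) :
    ∑ k ∈ s, ‖co K (u k).2 (syn a t c) (lin (u k) ζ)‖ ^ 2 ≤
      (2 * 2 ^ d) ^ 2 * (Real.exp (2 * (40 * d) + 2 * (2 * d) + 4 * Real.pi * (16 * d)) * μ) *
        ∫ β, Real.exp (-K * ‖β.2 - ζ‖ - 2 * (K / r * l1 (pos t₀ β - P))) * ‖c β‖ ^ 2 := by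
  have ha : 0 < a := hK.trans_le hKa
  have hr0 : 0 < r := (mul_pos hK ha).trans_le hr
  have hπ := Real.pi_gt_three
  have hd : (0 : ℝ) ≤ d := Nat.cast_nonneg d
  set β₀ : Ph d := lin (P, t₀) ζ with hβ₀
  have hp : ∀ β, pos t₀ (β - β₀) = pos t₀ β - P := fun β => by
    rw [pos_sub, hβ₀, lin]; simp [pos]
  let E : (Fin d → Bool) ⊕ (Fin d → Bool) → Ph d → ℝ :=
    Sum.elim (fun ε β => ⟪(2 * (K / r)) • sg ε, pos t₀ β⟫)
      fun ε β => 2 * Real.pi * ⟪K • sg ε, β.2⟫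
  have hcp := continuous_pos (d := d) t₀
  have hcl := continuous_l1 (d := d)
  have hE1 : ∀ β, Real.exp (2 * (K / r * l1 (pos t₀ β - P))) ≤ ∑ i, Real.exp (E i (β - β₀)) := by
    intro β
    obtain ⟨ε, hε⟩ := exists_sg (pos t₀ β - P)
    refine le_trans (le_of_eq ?_) (Finset.single_le_sum
      (f := fun i => Real.exp (E i (β - β₀))) (fun _ _ => (Real.exp_pos _).le)
      (Finset.mem_univ (.inl ε)))
    simp only [E, Sum.elim_inl, hp, inner_smul_left, hε, conj_trivial, mul_assoc]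
  have hE2 : ∀ β : Ph d, Real.exp (K * ‖β.2 - ζ‖) ≤ ∑ i, Real.exp (E i (β - β₀)) := by
    intro β
    obtain ⟨ε, hε⟩ := exists_sg (β.2 - ζ)
    refine le_trans (Real.exp_le_exp.2 ?_) (Finset.single_le_sum
      (f := fun i => Real.exp (E i (β - β₀))) (fun _ _ => (Real.exp_pos _).le)
      (Finset.mem_univ (.inr ε)))
    have : (β - β₀).2 = β.2 - ζ := rfl
    simp only [E, Sum.elim_inr, this, inner_smul_left, hε, conj_trivial]
    nlinarith [mul_le_mul_of_nonneg_left (norm_le_l1 (β.2 - ζ)) hK.le,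
      mul_nonneg hK.le (l1_nonneg (β.2 - ζ))]
  have h := tile s (fun k => gam K (u k).2 (lin (u k) ζ)) t ha
    (B := Real.exp (2 * (40 * d) + 2 * (2 * d) + 4 * Real.pi * (16 * d)) * μ) (by positivity)
    (fun i β => Real.exp (E i (β - β₀)))
    (fun i => by cases i <;> simp only [E, Sum.elim_inl, Sum.elim_inr] <;> fun_prop)
    (fun _ _ => (Real.exp_pos _).le)
    (fun β => Real.exp (-K * ‖β.2 - ζ‖ - 2 * (K / r * l1 (pos t₀ β - P))))
    (Continuous.measurable (by fun_prop))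
    (fun β => ⟨(Real.exp_pos _).le, Real.exp_le_one_iff.2 (by
      have := l1_nonneg (pos t₀ β - P)
      have : 0 ≤ K / r * l1 (pos t₀ β - P) := by positivity
      nlinarith [norm_nonneg (β.2 - ζ)])⟩)
    (fun β => le_trans (Real.one_le_exp (by positivity)) (hE2 β))
    (fun β => by
      refine le_trans (le_of_eq ?_) (mul_le_mul_of_nonneg_left ((mul_le_mul (hE1 β) (hE2 β)
        (Real.exp_pos _).le (Finset.sum_nonneg fun _ _ => (Real.exp_pos _).le)).trans_eq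
        (sq _).symm) (Real.exp_pos _).le)
      rw [← Real.exp_add, ← Real.exp_add, ← Real.exp_zero]
      congr 1; ring) ?_ hc
  · simpa [co, two_mul] using h
  have hKr : K ^ 2 ≤ r := by nlinarith
  rintro (ε | ε) g hg hg'
  · obtain ⟨U, hU, hU1, hid⟩ := shift_identity ha t t₀ ((2 * (K / r)) • sg ε)
    have hv : ‖(2 * (K / r)) • sg ε‖ ^ 2 = 4 * (K / r) ^ 2 * d := by
      rw [norm_smul, mul_pow, norm_sq_sg, Real.norm_eq_abs, sq_abs]; ring
    refine shift_bessel s u ζ t hK ha hμ hG (E (.inl ε))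
      (fun β β' => by simp only [E, Sum.elim_inl, pos_add, inner_add_right]) β₀
      ((2 * t * ((t₀ - t) / (Real.pi * a ^ 2))) • (2 * (K / r)) • sg ε,
        ((t₀ - t) / (Real.pi * a ^ 2)) • (2 * (K / r)) • sg ε)
      (((a ^ 2 + K ^ 2) / (2 * Real.pi)) • (2 * (K / r)) • sg ε) U hU hU1 (fun k hk => ?_) hg hg'
    obtain ⟨c, hc1, hc2⟩ := hid K hK (u k).2 (lin (u k) ζ)
    have h1 : ((u k).2 - t₀) ^ 2 ≤ (2 * r) ^ 2 := by rw [← sq_abs]; have := hu k hk; gcongr
    have h2 : (t - t₀) ^ 2 ≤ (2 * a ^ 2) ^ 2 := by rw [← sq_abs]; gcongr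
    refine ⟨?_, (((u k).2 - t₀) / (Real.pi * K ^ 2)) • (2 * (K / r)) • sg ε, c, ?_,
      hc1.trans (Real.exp_le_exp.2 ?_), fun β => ?_⟩
    · simp only [E, Sum.elim_inl, hp, inner_smul_left, conj_trivial]
      have := hP k hk
      nlinarith [mul_le_mul_of_nonneg_left (inner_sg_le ε (pos t₀ (lin (u k) ζ) - P))
        (div_pos hK hr0).le]
    · rw [norm_smul, mul_pow, hv, Real.norm_eq_abs, sq_abs]
      have : K ^ 2 * ((((u k).2 - t₀) / (Real.pi * K ^ 2)) ^ 2 * (4 * (K / r) ^ 2 * d)) =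
          4 * (((u k).2 - t₀) ^ 2 / (Real.pi ^ 2 * r ^ 2)) * d := by field_simp
      rw [this]
      have h3 : ((u k).2 - t₀) ^ 2 / (Real.pi ^ 2 * r ^ 2) ≤ 4 := by
        rw [div_le_iff₀ (by positivity)]
        nlinarith [mul_le_mul_of_nonneg_right (show 1 ≤ Real.pi ^ 2 by nlinarith) (sq_nonneg r)]
      nlinarith
    · rw [hv]
      have h3 : (K / r) ^ 2 * (a ^ 2 + K ^ 2 + (t - t₀) ^ 2 / a ^ 2 + ((u k).2 - t₀) ^ 2 / K ^ 2)
          ≤ 10 := by
        have h4 : (t - t₀) ^ 2 / a ^ 2 ≤ 4 * a ^ 2 := by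
          rw [div_le_iff₀ (by positivity)]; nlinarith
        have h5 : (K / r) ^ 2 * (((u k).2 - t₀) ^ 2 / K ^ 2) ≤ 4 := by
          rw [show (K / r) ^ 2 * (((u k).2 - t₀) ^ 2 / K ^ 2) = ((u k).2 - t₀) ^ 2 / r ^ 2 by
            field_simp, div_le_iff₀ (by positivity)]
          nlinarith
        have h6 : (K / r) ^ 2 * a ^ 2 ≤ 1 := by
          rw [div_pow, div_mul_eq_mul_div, div_le_one (by positivity), ← mul_pow]
          gcongr
        have h7 : K ^ 2 ≤ a ^ 2 := by gcongr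
        nlinarith [mul_le_mul_of_nonneg_left h4 (sq_nonneg (K / r)),
          mul_le_mul_of_nonneg_left h7 (sq_nonneg (K / r))]
      nlinarith
    · rw [smul_smul (2 * (u k).2), ← add_smul]
      exact hc2 β
  · obtain ⟨U, hU, hU1, hid⟩ := shift_mom ha t (K • sg ε)
    have hv : ‖K • sg ε‖ ^ 2 = K ^ 2 * d := by
      rw [norm_smul, mul_pow, norm_sq_sg, Real.norm_eq_abs, sq_abs]
    refine shift_bessel s u ζ t hK ha hμ hG (E (.inr ε))
      (fun β β' => by simp only [E, Sum.elim_inr, Prod.snd_add, inner_add_right, mul_add]) β₀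
      ((2 * t * (-1 / a ^ 2)) • K • sg ε, (-1 / a ^ 2) • K • sg ε) 0 U hU hU1 (fun k hk => ?_) hg hg'
    obtain ⟨c, hc1, hc2⟩ := hid K hK (u k).2 (lin (u k) ζ)
    refine ⟨?_, (1 / K ^ 2) • K • sg ε, c, ?_, hc1.trans_le (Real.exp_le_exp.2 ?_), fun β => ?_⟩
    · have : (lin (u k) ζ - β₀).2 = 0 := sub_self ζ
      simp only [E, Sum.elim_inr, this, inner_zero_right, mul_zero]
      positivity
    · rw [norm_smul, mul_pow, hv, Real.norm_eq_abs, sq_abs,
        show K ^ 2 * ((1 / K ^ 2) ^ 2 * (K ^ 2 * d)) = d by field_simp]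
      linarith
    · rw [hv]
      have h1 : K ^ 2 * (1 / a ^ 2) ≤ 1 := by
        rw [mul_one_div, div_le_one (by positivity)]; gcongr
      have h2 : K ^ 2 * (1 / K ^ 2) = 1 := by field_simp
      have h3 : K ^ 2 * (Real.pi * (1 / a ^ 2 + 1 / K ^ 2)) ≤ 40 := by
        nlinarith [Real.pi_le_four]
      nlinarith
    · rw [add_zero, smul_smul (2 * (u k).2)]
      exact hc2 β

end LB

open LB in
theorem lb (d : ℕ) : LB d := by
  classical
  obtain ⟨C, hC, hlat⟩ := exists_sum_lattice d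
  refine ⟨(2 * 2 ^ d) ^ 2 * Real.exp (2 * (40 * d) + 2 * (2 * d) + 4 * Real.pi * (16 * d)) *
    (Real.exp d * C), by positivity, ?_⟩
  intro κ s u ζ K r a t t₀ μ hK hKa hr ht hu hμ hG Ω Ωm hΩ hΩ1 hΩ2 c hc
  have ha : 0 < a := hK.trans_le hKa
  have hr0 : 0 < r := (mul_pos hK ha).trans_le hr
  have hρ : 0 < K / r := div_pos hK hr0
  let τ : κ → Fin d → ℤ := fun k j => ⌊K / r * pos t₀ (lin (u k) ζ) j⌋
  let P : (Fin d → ℤ) → V d := fun n => WithLp.toLp 2 fun j => (K / r)⁻¹ * n j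
  have hl : ∀ (x : V d) n, K / r * l1 (x - P n) = ∑ j, |K / r * x j - n j| := by
    intro x n
    rw [l1, Finset.mul_sum]
    refine Finset.sum_congr rfl fun j _ => ?_
    rw [← abs_of_pos hρ, ← abs_mul, abs_of_pos hρ, PiLp.sub_apply, mul_sub]
    simp only [P]
    rw [mul_inv_cancel_left₀ hρ.ne']
  have hP : ∀ k, K / r * l1 (pos t₀ (lin (u k) ζ) - P (τ k)) ≤ d := by
    intro k
    rw [hl]
    refine (Finset.sum_le_sum (g := fun _ => (1 : ℝ)) fun j _ => ?_).trans (by simp)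
    rw [abs_le]
    constructor <;> linarith [Int.floor_le (K / r * pos t₀ (lin (u k) ζ) j),
      Int.lt_floor_add_one (K / r * pos t₀ (lin (u k) ζ) j)]
  have hcp := continuous_pos (d := d) t₀
  have hcl := continuous_l1 (d := d)
  have hG0 : ∀ k k', 0 ≤ Gs K (Real.pi / 2) (u k) (u k') ζ := fun k k' =>
    mul_nonneg (pre_pos hK hK _ _).le (Real.exp_pos _).le
  rw [← Finset.sum_fiberwise_of_maps_to (g := τ) fun k hk => Finset.mem_image_of_mem τ hk]
  refine (Finset.sum_le_sum fun n _ => one_tile _ u ζ (P n) hK hKa hr ht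
    (fun k hk => hu k (Finset.mem_filter.1 hk).1) hμ
    (fun k hk => le_trans (Finset.sum_le_sum_of_subset_of_nonneg (Finset.filter_subset _ _)
      fun _ _ _ => hG0 _ _) (hG k (Finset.mem_filter.1 hk).1))
    (fun k hk => by rw [← (Finset.mem_filter.1 hk).2]; exact hP k) hc).trans ?_
  have hint : ∀ n, Integrable fun β : Ph d =>
      Real.exp (-K * ‖β.2 - ζ‖ - 2 * (K / r * l1 (pos t₀ β - P n))) * ‖c β‖ ^ 2 := fun n =>
    integrable_weight (M := 1) hc (Continuous.measurable (by fun_prop)) fun β =>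
      ⟨(Real.exp_pos _).le, Real.exp_le_one_iff.2 (by
        have := l1_nonneg (pos t₀ β - P n)
        have : 0 ≤ K / r * l1 (pos t₀ β - P n) := by positivity
        nlinarith [norm_nonneg (β.2 - ζ)])⟩
  have hint' : Integrable fun β : Ph d => Real.exp (-K * ‖β.2 - ζ‖) * Ω β * ‖c β‖ ^ 2 :=
    integrable_weight (M := Ωm) hc ((Continuous.measurable (by fun_prop)).mul hΩ) fun β =>
      ⟨mul_nonneg (Real.exp_pos _).le (hΩ1 β).1, (mul_le_of_le_one_left (hΩ1 β).1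
        (Real.exp_le_one_iff.2 (by nlinarith [norm_nonneg (β.2 - ζ)]))).trans (hΩ1 β).2⟩
  rw [← Finset.mul_sum, ← integral_finsetSum _ fun n _ => hint n]
  have key : ∫ β : Ph d, ∑ n ∈ s.image τ,
      Real.exp (-K * ‖β.2 - ζ‖ - 2 * (K / r * l1 (pos t₀ β - P n))) * ‖c β‖ ^ 2 ≤
      Real.exp d * C * ∫ β : Ph d, Real.exp (-K * ‖β.2 - ζ‖) * Ω β * ‖c β‖ ^ 2 := by
    rw [← integral_const_mul]
    refine integral_mono (integrable_finsetSum _ fun n _ => hint n) (hint'.const_mul _)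
      fun β => ?_
    simp only [← Finset.sum_mul, ← mul_assoc]
    refine mul_le_mul_of_nonneg_right ?_ (sq_nonneg _)
    calc _ ≤ ∑ n ∈ s.image τ, Real.exp (-K * ‖β.2 - ζ‖) * (Real.exp d * Ω β) *
            Real.exp (-∑ j, |K / r * pos t₀ β j - n j|) := by
          refine Finset.sum_le_sum fun n hn => ?_
          obtain ⟨k, hk, rfl⟩ := Finset.mem_image.1 hn
          refine le_trans ?_ (mul_le_mul_of_nonneg_right (mul_le_mul_of_nonneg_left
            (mul_le_mul_of_nonneg_left (hΩ2 β k hk) (Real.exp_pos _).le) (Real.exp_pos _).le)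
            (Real.exp_pos _).le)
          rw [← hl, ← Real.exp_add, ← Real.exp_add, ← Real.exp_add]
          refine Real.exp_le_exp.2 ?_
          have h1 : ‖pos t₀ (β - lin (u k) ζ)‖ ≤
              l1 (pos t₀ β - P (τ k)) + l1 (pos t₀ (lin (u k) ζ) - P (τ k)) := by
            rw [pos_sub, ← sub_sub_sub_cancel_right _ _ (P (τ k))]
            exact (norm_sub_le _ _).trans (add_le_add (norm_le_l1 _) (norm_le_l1 _))
          nlinarith [mul_le_mul_of_nonneg_left h1 hρ.le, hP k]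
      _ ≤ Real.exp (-K * ‖β.2 - ζ‖) * (Real.exp d * Ω β) * C := by
          rw [← Finset.mul_sum]
          exact mul_le_mul_of_nonneg_left (hlat _ _)
            (mul_nonneg (Real.exp_pos _).le (mul_nonneg (Real.exp_pos _).le (hΩ1 β).1))
      _ = _ := by ring
  refine (mul_le_mul_of_nonneg_left key (by positivity)).trans (le_of_eq (by ring))

end Crest.Agent.N76.II
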