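import Crest.Agent.N76.II.Dens

/-! # Row 76 (S0101): few directions are crowded at small times (`PhiB`, helper61). -/

set_option autoImplicit false

open MeasureTheory Set Metric
open scoped ENNReal RealInnerProductSpace

namespace Crest.Agent.N76.II

open Crest.Agent.N76.Red (V ph)
open Crest.Agent.N76.G

variable {d : ℕ}

namespace PhiB

theorem shell {ι : Type} (s : Finset ι) (f : ι → ℝ) (κ : ι → ℕ) {D q : ℝ} (hD : 0 ≤ D)
    (h0 : 0 ≤ q) (h1 : q < 1) (h : ∀ k, ∑ c ∈ s.filter (fun c => κ c = k), f c ≤ D * q ^ k) :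
    ∑ c ∈ s, f c ≤ (1 - q)⁻¹ * D := by
  rw [← Finset.sum_fiberwise_of_maps_to (g := κ) fun c hc => Finset.mem_image_of_mem κ hc]
  refine (Finset.sum_le_sum fun k _ => h k).trans ?_
  rw [← Finset.mul_sum, mul_comm, ← tsum_geometric_of_lt_one h0 h1]
  exact mul_le_mul_of_nonneg_right ((summable_geometric_of_lt_one h0 h1).sum_le_tsum _
    fun _ _ => by positivity) hD

theorem sum_up {α β : ℝ} (hβ : 0 ≤ β) (h : α < β) : ∃ C : ℝ, 0 ≤ C ∧ ∀ (ι : Type) (s : Finset ι)
    (l : ι → ℝ) (r₀ A : ℝ), 0 < r₀ → 0 ≤ A → (∀ c ∈ s, r₀ ≤ l c) →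
    (∀ r, r₀ ≤ r → ((s.filter fun c => l c ≤ r).card : ℝ) ≤ A * (r / r₀) ^ α) →
    ∑ c ∈ s, (r₀ / l c) ^ β ≤ C * A := by
  have h1 : (2 : ℝ) ^ (α - β) < 1 := Real.rpow_lt_one_of_one_lt_of_neg one_lt_two (by linarith)
  refine ⟨(1 - 2 ^ (α - β))⁻¹ * 2 ^ α, mul_nonneg (inv_nonneg.2 (by linarith)) (by positivity),
    fun ι s l r₀ A hr hA hl hc => ?_⟩
  have h2 : ∀ c ∈ s, ∃ k : ℕ, 2 ^ k ≤ l c / r₀ ∧ l c / r₀ < 2 ^ (k + 1) := fun c hc =>
    exists_nat_pow_near ((one_le_div hr).2 (hl c hc)) one_lt_two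
  choose! κ hκ using h2
  rw [mul_assoc]
  refine shell s _ κ (by positivity) (by positivity) h1 fun k => ?_
  have h3 := hc (r₀ * 2 ^ (k + 1)) (le_mul_of_one_le_right hr.le (one_le_pow₀ one_le_two))
  refine (Finset.sum_le_card_nsmul _ _ (((2 : ℝ) ^ k)⁻¹ ^ β) fun c hc => ?_).trans ?_
  · obtain ⟨hc', hk⟩ := Finset.mem_filter.1 hc
    subst hk
    replace hc := hc'
    have h4 := hr.trans_le (hl c hc)
    refine Real.rpow_le_rpow (by positivity) ?_ hβ
    rw [← inv_div]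
    exact inv_anti₀ (by positivity) (hκ c hc).1
  · rw [nsmul_eq_mul]
    refine (mul_le_mul_of_nonneg_right (le_trans (Nat.cast_le.2 (Finset.card_le_card
      fun c hc => ?_)) h3) (by positivity)).trans (le_of_eq ?_)
    · obtain ⟨hc', hk⟩ := Finset.mem_filter.1 hc
      subst hk
      replace hc := hc'
      exact Finset.mem_filter.2 ⟨hc, by
        have := (hκ c hc).2.le; rwa [div_le_iff₀' hr] at this⟩
    · rw [mul_div_cancel_left₀ _ hr.ne', Real.inv_rpow (by positivity), ← Real.rpow_natCast,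
        ← Real.rpow_natCast, ← Real.rpow_natCast, ← Real.rpow_mul two_pos.le,
        ← Real.rpow_mul two_pos.le, ← Real.rpow_mul two_pos.le, ← Real.rpow_neg two_pos.le,
        mul_assoc, mul_right_comm, mul_comm _ A, ← Real.rpow_add two_pos, ← Real.rpow_add two_pos]
      congr 2; push_cast; ring

theorem sum_down {α β : ℝ} (hβ : 0 ≤ β) (h : β < α) : ∃ C : ℝ, 0 ≤ C ∧ ∀ (ι : Type)
    (s : Finset ι) (l : ι → ℝ) (r₁ A : ℝ), 0 < r₁ → 0 ≤ A → (∀ c ∈ s, 0 < l c ∧ l c ≤ r₁) →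
    (∀ r, 0 < r → r ≤ r₁ → ((s.filter fun c => l c ≤ r).card : ℝ) ≤ A * (r / r₁) ^ α) →
    ∑ c ∈ s, (r₁ / l c) ^ β ≤ C * A := by
  have h1 : (2 : ℝ) ^ (β - α) < 1 := Real.rpow_lt_one_of_one_lt_of_neg one_lt_two (by linarith)
  refine ⟨(1 - 2 ^ (β - α))⁻¹ * 2 ^ β, mul_nonneg (inv_nonneg.2 (by linarith)) (by positivity),
    fun ι s l r₁ A hr hA hl hc => ?_⟩
  have h2 : ∀ c ∈ s, ∃ k : ℕ, 2 ^ k ≤ r₁ / l c ∧ r₁ / l c < 2 ^ (k + 1) := fun c hc =>
    exists_nat_pow_near ((one_le_div (hl c hc).1).2 (hl c hc).2) one_lt_two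
  choose! κ hκ using h2
  rw [mul_assoc]
  refine shell s _ κ (by positivity) (by positivity) h1 fun k => ?_
  have h3 := hc (r₁ / 2 ^ k) (by positivity) (div_le_self hr.le (one_le_pow₀ one_le_two))
  refine (Finset.sum_le_card_nsmul _ _ (((2 : ℝ) ^ (k + 1)) ^ β) fun c hc => ?_).trans ?_
  · obtain ⟨hc', hk⟩ := Finset.mem_filter.1 hc
    subst hk
    replace hc := hc'
    have h4 := (hl c hc).1
    exact Real.rpow_le_rpow (by positivity) (hκ c hc).2.le hβ
  · rw [nsmul_eq_mul]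
    refine (mul_le_mul_of_nonneg_right (le_trans (Nat.cast_le.2 (Finset.card_le_card
      fun c hc => ?_)) h3) (by positivity)).trans (le_of_eq ?_)
    · obtain ⟨hc', hk⟩ := Finset.mem_filter.1 hc
      subst hk
      replace hc := hc'
      exact Finset.mem_filter.2 ⟨hc, by
        have := (hκ c hc).1
        rw [le_div_iff₀ (hl c hc).1] at this
        rwa [le_div_iff₀' (by positivity)]⟩
    · rw [div_right_comm, div_self hr.ne', one_div, Real.inv_rpow (by positivity),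
        ← Real.rpow_natCast, ← Real.rpow_natCast, ← Real.rpow_natCast, ← Real.rpow_mul two_pos.le,
        ← Real.rpow_mul two_pos.le, ← Real.rpow_mul two_pos.le, ← Real.rpow_neg two_pos.le,
        mul_assoc, mul_right_comm, mul_comm _ A, ← Real.rpow_add two_pos, ← Real.rpow_add two_pos]
      congr 2; push_cast; ring

theorem sq_rpow {x : ℝ} (hx : 0 ≤ x) : (x ^ 2) ^ ((d : ℝ) / 2) = x ^ d := by
  rw [← Real.rpow_natCast, ← Real.rpow_mul hx, ← Real.rpow_natCast]
  congr 1; push_cast; ring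

theorem Gs_eq {K : ℝ} (hK : 0 < K) (u u' : V d × ℝ) (ζ : V d) {σ : ℝ} (hσ : 0 < σ)
    (h : σ ^ 2 = K ^ 4 + (u.2 - u'.2) ^ 2) : Gs K (Real.pi / 8) u u' ζ =
      (K ^ 2 / σ) ^ ((d : ℝ) / 2) * Real.exp (-(Real.pi / 16 * (K / σ) ^ 2) *
        ‖u.1 - u'.1 + (2 * (u.2 - u'.2)) • ζ‖ ^ 2) := by
  have h1 : sig K u.2 K u'.2 = 4 * σ ^ 2 := by rw [sig, h]; ring
  have h2 : ∀ t, pos t (lin u ζ - lin u' ζ) = u.1 - u'.1 + (2 * (u.2 - u'.2)) • ζ := fun t => by
    simp only [pos, lin, Prod.fst_sub, Prod.snd_sub]; module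
  have h3 : (lin u ζ - lin u' ζ).2 = 0 := sub_self ζ
  rw [Gs, pre, Qf, h1, h2, h2, h3, norm_zero,
    show 4 * K ^ 2 * K ^ 2 / (4 * σ ^ 2) = (K ^ 2 / σ) ^ 2 by field_simp, ← Real.rpow_natCast,
    ← Real.rpow_mul (by positivity)]
  congr 2
  · push_cast; ring
  · field_simp; ring

theorem Gs_nonneg {K : ℝ} (hK : 0 < K) (c : ℝ) (u u' : V d × ℝ) (ζ : V d) :
    0 ≤ Gs K c u u' ζ := mul_nonneg (pre_pos hK hK _ _).le (Real.exp_pos _).le

theorem Gs_le_one {K c : ℝ} (hK : 0 < K) (hc : 0 ≤ c) (u u' : V d × ℝ) (ζ : V d) :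
    Gs K c u u' ζ ≤ 1 :=
  mul_le_one₀ (pre_le_one hK hK _ _) (Real.exp_pos _).le (Real.exp_le_one_iff.2
    (by nlinarith [mul_nonneg hc (Qf_nonneg K u.2 K u'.2 (lin u ζ - lin u' ζ))]))

theorem continuous_Gs (K c : ℝ) (u u' : V d × ℝ) : Continuous (Gs K c u u') := by
  have := continuous_Qf (d := d) K u.2 K u'.2
  unfold Gs lin; fun_prop

theorem exp_le_pow (m : ℕ) {y : ℝ} (hy : 0 < y) :
    Real.exp (-(y ^ 2 / 32)) ≤ Real.exp 8 * m.factorial * y⁻¹ ^ m := by
  have h := Real.pow_div_factorial_le_exp y hy.le m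
  have hm : (0 : ℝ) < m.factorial := by positivity
  calc _ ≤ Real.exp 8 * (Real.exp y)⁻¹ := by
        rw [← Real.exp_neg, ← Real.exp_add]
        exact Real.exp_le_exp.2 (by nlinarith [sq_nonneg (y - 16)])
    _ ≤ Real.exp 8 * (y ^ m / m.factorial)⁻¹ := by gcongr
    _ = _ := by rw [inv_div, inv_pow]; ring

/-- the average of the overlap over the directions -/
theorem exists_int (d m : ℕ) : ∃ C : ℝ, 0 ≤ C ∧ ∀ (K σ' : ℝ) (u u' : V d × ℝ), 1 ≤ K →
    0 < dist u' u → K ^ 2 + |u'.2 - u.2| ≤ σ' →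
    ∫ ζ in closedBall (0 : V d) 3, Gs K (Real.pi / 8) u u' ζ ≤
      C * ((σ' / dist u' u ^ 2) ^ ((d : ℝ) / 2) * (σ' / dist u' u) ^ m) := by
  set v := (volume : Measure (V d)).real (closedBall 0 3) with hv
  have hv0 : 0 ≤ v := measureReal_nonneg
  refine ⟨v * (Real.exp 8 * (d + m).factorial) + 576 ^ ((d : ℝ) / 2) * 12 ^ m, by positivity,
    fun K σ' u u' hK hl hσ' => ?_⟩
  have hK0 : 0 < K := by linarith
  have hπ := Real.pi_gt_three
  rw [abs_sub_comm] at hσ'
  obtain ⟨σ, hσ0, hσ⟩ : ∃ σ : ℝ, 0 < σ ∧ σ ^ 2 = K ^ 4 + (u.2 - u'.2) ^ 2 :=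
    ⟨√(K ^ 4 + (u.2 - u'.2) ^ 2), by positivity, Real.sq_sqrt (by positivity)⟩
  simp only [Gs_eq hK0 u u' _ hσ0 hσ]
  have hl' : dist u' u = max ‖u.1 - u'.1‖ |u.2 - u'.2| := by
    rw [dist_comm, Prod.dist_eq, dist_eq_norm, Real.dist_eq]
  generalize u.1 - u'.1 = x at *
  generalize u.2 - u'.2 = τ at *
  set l := dist u' u
  have hτ := abs_nonneg τ
  have h1 : σ ≤ σ' := le_trans (le_of_sq_le_sq (by
    rw [hσ, ← sq_abs τ]; nlinarith [mul_nonneg (sq_nonneg K) hτ]) (by positivity)) hσ'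
  have hσ'0 : 0 < σ' := hσ0.trans_le h1
  rw [add_mul]
  by_cases hc : 12 * |τ| ≤ ‖x‖
  · refine le_add_of_le_of_nonneg ?_ (by positivity)
    have hx : l = ‖x‖ := by rw [hl', max_eq_left (by linarith)]
    rw [mul_assoc v]
    rw [mul_comm v]
    refine (Real.le_norm_self _).trans (norm_setIntegral_le_of_norm_le_const
      measure_closedBall_lt_top fun ζ hζ => ?_)
    rw [Real.norm_of_nonneg (by positivity)]
    have h2 : l / 2 ≤ ‖x + (2 * τ) • ζ‖ := by
      have h3 : ‖x‖ ≤ ‖x + (2 * τ) • ζ‖ + ‖(2 * τ) • ζ‖ := by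
        simpa using norm_sub_le (x + (2 * τ) • ζ) ((2 * τ) • ζ)
      rw [norm_smul, Real.norm_eq_abs, abs_mul, abs_two] at h3
      nlinarith [mul_le_mul_of_nonneg_left (mem_closedBall_zero_iff.1 hζ) hτ]
    have h3 : Real.exp (-(Real.pi / 16 * (K / σ) ^ 2) * ‖x + (2 * τ) • ζ‖ ^ 2) ≤
        Real.exp (-((K * l / σ) ^ 2 / 32)) := by
      refine Real.exp_le_exp.2 ?_
      have h4 : (l / 2) ^ 2 ≤ ‖x + (2 * τ) • ζ‖ ^ 2 := by gcongr
      have h5 : (K * l / σ) ^ 2 = 4 * ((K / σ) ^ 2 * (l / 2) ^ 2) := by ring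
      have h6 := mul_le_mul_of_nonneg_left h4 (sq_nonneg (K / σ))
      have h7 : 0 ≤ (K / σ) ^ 2 * ‖x + (2 * τ) • ζ‖ ^ 2 := by positivity
      nlinarith
    refine (mul_le_mul_of_nonneg_left (h3.trans (exp_le_pow (d + m) (by positivity)))
      (by positivity)).trans ?_
    rw [mul_left_comm, pow_add _ d m, ← sq_rpow (x := (K * l / σ)⁻¹) (by positivity),
      ← mul_assoc ((K ^ 2 / σ) ^ _),
      ← Real.mul_rpow (by positivity) (by positivity),
      show K ^ 2 / σ * (K * l / σ)⁻¹ ^ 2 = σ / l ^ 2 by field_simp, inv_div]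
    gcongr
    exact le_mul_of_one_le_left hl.le hK
  · refine le_add_of_nonneg_of_le (by positivity) ?_
    have h2 : l ≤ 12 * |τ| := by rw [hl']; exact max_le (by linarith) (by linarith)
    have hτ0 : 0 < |τ| := by linarith
    have hτ1 : τ ≠ 0 := abs_pos.1 hτ0
    have hb : 0 < Real.pi / 16 * (K / σ) ^ 2 * (2 * τ) ^ 2 := by positivity
    have h3 : ∀ ζ : V d, -(Real.pi / 16 * (K / σ) ^ 2) * ‖x + (2 * τ) • ζ‖ ^ 2 =
        -(Real.pi / 16 * (K / σ) ^ 2 * (2 * τ) ^ 2) * ‖ζ + (2 * τ)⁻¹ • x‖ ^ 2 := fun ζ => by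
      rw [show x + (2 * τ) • ζ = (2 * τ) • (ζ + (2 * τ)⁻¹ • x) by
        rw [smul_add, smul_inv_smul₀ (by positivity), add_comm], norm_smul, mul_pow,
        Real.norm_eq_abs, sq_abs]
      ring
    simp only [h3]
    refine (setIntegral_le_integral (((Iso.integrable_gauss hb).comp_add_right _).const_mul _)
      (.of_forall fun ζ => by positivity)).trans ?_
    rw [integral_const_mul, integral_add_right_eq_self
      (fun ζ : V d => Real.exp (-(Real.pi / 16 * (K / σ) ^ 2 * (2 * τ) ^ 2) * ‖ζ‖ ^ 2)),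
      Iso.integral_gauss hb, ← Real.mul_rpow (by positivity) (by positivity), mul_mul_mul_comm,
      ← Real.mul_rpow (by positivity) (by positivity), ← mul_pow,
      show K ^ 2 / σ * (Real.pi / (Real.pi / 16 * (K / σ) ^ 2 * (2 * τ) ^ 2)) = 4 * σ / τ ^ 2 by
        field_simp; ring]
    refine (Real.rpow_le_rpow (by positivity) ?_ (by positivity)).trans
      (le_mul_of_one_le_right (by positivity) (one_le_pow₀ ?_))
    · rw [← sq_abs τ, mul_div_assoc', div_le_div_iff₀ (by positivity) (by positivity)]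
      have h4 : l ^ 2 ≤ (12 * |τ|) ^ 2 := by gcongr
      nlinarith [mul_le_mul h1 h4 (sq_nonneg _) hσ'0.le]
    · rw [mul_div_assoc', one_le_div hl]
      nlinarith [sq_nonneg K]

theorem prd_le {R r : ℝ} (hR : 1 ≤ R) (h1 : Ssc (d + 1) R / 8 ≤ r) (h2 : r ≤ Ssc (d + 1) R ^ 2) :
    prd d R r ≤ 8 ^ d * (r / Ssc (d + 1) R) ^ d := by
  have hS := one_le_Ssc hR (d + 1)
  unfold prd
  rw [← Ssc_pow (d := d) hR]
  generalize Ssc (d + 1) R = S at hS h1 h2
  have hr : 0 < r := by linarith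
  have h3 : (r / S) ^ d ≤ 8 ^ d * (r / S) ^ d :=
    le_mul_of_one_le_left (by positivity) (one_le_pow₀ (by norm_num))
  refine max_le ?_ (max_le h3 (le_trans ?_ h3))
  · rw [← mul_pow]
    exact one_le_pow₀ (by rw [mul_div_assoc', one_le_div (by positivity)]; linarith)
  · rw [show r ^ (d + 1) / S ^ (d + 2) = (r / S) ^ d * (r / S ^ 2) by
      rw [div_pow]; field_simp; ring]
    exact mul_le_of_le_one_right (by positivity) ((div_le_one (by positivity)).2 h2)

end PhiB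

open PhiB in
theorem phiB (d : ℕ) (hd : 1 ≤ d) : PhiB d := by
  classical
  intro η C₁ hη hη1 hC₁
  have hd' : (1 : ℝ) ≤ d := by exact_mod_cast hd
  obtain ⟨C0, hC0, hI0⟩ := exists_int d 0
  obtain ⟨C2, hC2, hI2⟩ := exists_int d (d + 2)
  obtain ⟨CA, hCA, hA⟩ := sum_up (α := η) (β := (d : ℝ) / 2) (by linarith) (by linarith)
  obtain ⟨CB, hCB, hB⟩ := sum_down (α := d) (β := (d : ℝ) / 2) (by linarith) (by linarith)
  obtain ⟨CC, hCC, hC⟩ := sum_up (α := ((d + 1 : ℕ) : ℝ)) (β := ((d + 2 : ℕ) : ℝ))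
    (by positivity) (by push_cast; linarith)
  set h : ℝ := (d : ℝ) / 2 with hh
  set e : ℝ := (d : ℝ) / (4 * η) with he
  have he0 : 0 ≤ e := by positivity
  have hh0 : 0 ≤ h := by positivity
  set v := (volume : Measure (V d)).real (closedBall 0 3) with hv
  have hv0 : 0 ≤ v := measureReal_nonneg
  refine ⟨(v + C0 * 2 ^ h * CA) * (2 * C₁) ^ e +
    2 * ((C0 * 3 ^ h * CB + C2 * 3 ^ h * 3 ^ (d + 2) * CC) * (C₁ * 8 ^ d)), by positivity, ?_⟩
  intro R B K hR hB1 hK hKS hBS ι 𝒞 p u H1 H2 μ hμ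
  have hS := one_le_Ssc hR (d + 1)
  have hprd := fun r => prd_le (d := d) (r := r) hR
  have hprd' := fun r c => prd_mul_le (d := d) (r := r) (c := c) hR
  set S := Ssc (d + 1) R
  set ρ := S ^ 2 / B ^ 30 with hρ
  have hB30 : 1 ≤ B ^ 30 := one_le_pow₀ hB1
  have hρ1 : S ≤ ρ := by rw [hρ, le_div_iff₀ (by positivity)]; nlinarith
  have hρ2 : ρ ≤ S ^ 2 := div_le_self (by positivity) hB30
  have hρ0 : 0 < ρ := by linarith
  have hK0 : 0 < K := by linarith
  have hKK : K ≤ K ^ 2 := by nlinarith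
  have hμe : 0 < μ ^ (-(d : ℝ) / (4 * η)) := by positivity
  have hμB : 0 < 1 / (B ^ 8 * μ) := by positivity
  set s := 𝒞.filter fun c => |(p c).2 - u.2| ≤ 2 * ρ with hs
  suffices hmain : ∃ Y : ℝ, volume {ζ : V d | ‖ζ‖ ≤ 3 ∧ μ ≤ ∑ c ∈ s, Gs K (Real.pi / 8) u (p c) ζ}
      ≤ ENNReal.ofReal Y ∧ Y ≤ (v + C0 * 2 ^ h * CA) * (2 * C₁) ^ e * μ ^ (-(d : ℝ) / (4 * η)) +
      2 * ((C0 * 3 ^ h * CB + C2 * 3 ^ h * 3 ^ (d + 2) * CC) * (C₁ * 8 ^ d)) * (1 / (B ^ 8 * μ)) by
    obtain ⟨Y, h1, h2⟩ := hmain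
    refine h1.trans (ENNReal.ofReal_le_ofReal (h2.trans ?_))
    rw [add_mul (_ * (2 * C₁) ^ e)]
    exact add_le_add (mul_le_mul_of_nonneg_left (le_add_of_nonneg_right hμB.le) (by positivity))
      (mul_le_mul_of_nonneg_left (le_add_of_nonneg_left hμe.le) (by positivity))
  have hx : (2 * C₁) ^ e * μ ^ (-(d : ℝ) / (4 * η)) = (μ / (2 * C₁)) ^ (-e) := by
    rw [neg_div, ← he, Real.div_rpow hμ.le (by positivity), Real.rpow_neg (by positivity) e,
      Real.rpow_neg (x := 2 * C₁) (by positivity) e, div_inv_eq_mul, mul_comm]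
  rw [mul_assoc (v + _), hx]
  set x := μ / (2 * C₁) with hxx
  have hx0 : 0 < x := by positivity
  by_cases hx1 : x < 1
  · refine ⟨v, (measure_mono fun ζ hζ => mem_closedBall_zero_iff.2 hζ.1).trans_eq
      (ofReal_measureReal measure_closedBall_lt_top.ne).symm, le_add_of_le_of_nonneg ?_
      (by positivity)⟩
    exact (le_add_of_nonneg_right (by positivity)).trans (le_mul_of_one_le_right (by positivity)
      (Real.one_le_rpow_of_pos_of_le_one_of_nonpos hx0 hx1.le (by linarith)))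
  rw [not_lt] at hx1
  set r₀ := K * x ^ (1 / η) with hr₀
  have hr₀K : K ≤ r₀ := le_mul_of_one_le_right hK0.le (Real.one_le_rpow hx1 (by positivity))
  have hr₀0 : 0 < r₀ := by linarith
  have hr₀e : C₁ * (r₀ / K) ^ η = μ / 2 := by
    rw [hr₀, mul_div_cancel_left₀ _ hK0.ne', ← Real.rpow_mul hx0.le, one_div_mul_cancel hη.ne',
      Real.rpow_one, hxx]
    field_simp
  let l : ι → ℝ := fun c => dist (p c) u
  let I : ι → ℝ := fun c => ∫ ζ in closedBall (0 : V d) 3, Gs K (Real.pi / 8) u (p c) ζ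
  let far := s.filter fun c => ¬ l c ≤ min r₀ (S / 8)
  have hcard : ∀ (P : ι → Prop) [DecidablePred P] (r r' : ℝ), (∀ c, P c → l c ≤ r → l c ≤ r') →
      ((((s.filter P).filter fun c => l c ≤ r).card : ℕ) : ℝ) ≤
        (𝒞.filter fun c => p c ∈ closedBall u r').card := fun P _ r r' hP =>
    Nat.cast_le.2 (Finset.card_le_card fun c hc => by
      simp only [hs, Finset.mem_filter] at hc
      exact Finset.mem_filter.2 ⟨hc.1.1.1, hP c hc.1.2 hc.2⟩)
  have hτ : ∀ (P : ι → Prop) [DecidablePred P], ∀ c ∈ s.filter P, |(p c).2 - u.2| ≤ 2 * ρ :=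
    fun P _ c hc => (Finset.mem_filter.1 (Finset.mem_filter.1 hc).1).2
  have hτl : ∀ c, |(p c).2 - u.2| ≤ l c := fun c => by
    simp only [l, Prod.dist_eq, Real.dist_eq]; exact le_max_right _ _
  have hint : ∀ c, IntegrableOn (Gs K (Real.pi / 8) u (p c)) (closedBall (0 : V d) 3) :=
    fun c => (continuous_Gs _ _ _ _).continuousOn.integrableOn_compact (isCompact_closedBall _ _)
  have hI : ∀ c, 0 ≤ I c := fun c => integral_nonneg fun ζ => Gs_nonneg hK0 _ _ _ _
  -- the three ranges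
  have hSA : ∑ c ∈ s.filter (fun c => r₀ ≤ l c ∧ l c ≤ S / 8), I c ≤
      C0 * 2 ^ h * CA * x ^ (-e) * (μ / 2) := by
    have h1 := hA ι (s.filter fun c => r₀ ≤ l c ∧ l c ≤ S / 8) l r₀ (μ / 2) hr₀0 (by positivity)
      (fun c hc => (Finset.mem_filter.1 hc).2.1) fun r hr => by
        refine (hcard _ r (min r (S / 8)) fun c hc h' => le_min h' hc.2).trans
          ((H1 _ (le_min (hr₀K.trans hr) (by linarith)) (min_le_right _ _)).trans ?_)
        rw [← hr₀e, mul_assoc, ← Real.mul_rpow (by positivity) (div_nonneg (by linarith) hr₀0.le),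
          show r₀ / K * (r / r₀) = r / K by field_simp]
        have : 0 ≤ min r (S / 8) := le_min (by linarith) (by linarith)
        gcongr
        exact min_le_left _ _
    have h2 : (K / r₀) ^ h ≤ x ^ (-e) := by
      rw [hr₀, div_mul_cancel_left₀ hK0.ne', ← Real.rpow_neg hx0.le, ← Real.rpow_mul hx0.le]
      refine Real.rpow_le_rpow_of_exponent_le hx1 ?_
      rw [show -(1 / η) * h = -(2 * e) by rw [he, hh]; field_simp; ring]
      linarith
    calc _ ≤ ∑ c ∈ s.filter (fun c => r₀ ≤ l c ∧ l c ≤ S / 8),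
            C0 * 2 ^ h * (K / r₀) ^ h * (r₀ / l c) ^ h := by
          refine Finset.sum_le_sum fun c hc => ?_
          have h3 : K ≤ l c := hr₀K.trans (Finset.mem_filter.1 hc).2.1
          have h4 : 0 < l c := by linarith
          refine (hI0 K (2 * K * l c) u (p c) hK h4 (by nlinarith [hτl c])).trans (le_of_eq ?_)
          rw [pow_zero, mul_one, mul_assoc C0, mul_assoc C0,
            ← Real.mul_rpow (by positivity) (by positivity),
            ← Real.mul_rpow (by positivity) (by positivity)]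
          congr 2
          change 2 * K * l c / l c ^ 2 = _
          field_simp
      _ ≤ C0 * 2 ^ h * x ^ (-e) * (CA * (μ / 2)) := by
          rw [← Finset.mul_sum]
          exact mul_le_mul (mul_le_mul_of_nonneg_left h2 (by positivity)) h1
            (Finset.sum_nonneg fun c _ => Real.rpow_nonneg (div_nonneg hr₀0.le dist_nonneg) _)
            (by positivity)
      _ = _ := by ring
  have hfin : (3 / ρ) ^ h * (B ^ 7 * (ρ / S) ^ d) ≤ 3 ^ h * (1 / B ^ 8) := by
    rw [mul_left_comm, ← sq_rpow (x := ρ / S) (by positivity), ← hh,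
      ← Real.mul_rpow (by positivity) (by positivity),
      show 3 / ρ * (ρ / S) ^ 2 = 3 * ((B ^ 15)⁻¹) ^ 2 by rw [hρ]; field_simp,
      Real.mul_rpow (by positivity) (by positivity), hh, sq_rpow (by positivity), mul_left_comm]
    refine mul_le_mul_of_nonneg_left ?_ (by positivity)
    have h1 : (B ^ 15)⁻¹ ^ d ≤ (B ^ 15)⁻¹ :=
      pow_le_of_le_one (by positivity) (inv_le_one_of_one_le₀ (one_le_pow₀ hB1)) (by omega)
    refine (mul_le_mul_of_nonneg_left h1 (by positivity)).trans (le_of_eq ?_)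
    field_simp
  have hSB : ∑ c ∈ s.filter (fun c => S / 8 ≤ l c ∧ l c ≤ ρ), I c ≤
      C0 * CB * (C₁ * 8 ^ d) * ((3 / ρ) ^ h * (B ^ 7 * (ρ / S) ^ d)) := by
    have h1 := hB ι (s.filter fun c => S / 8 ≤ l c ∧ l c ≤ ρ) l ρ
      (C₁ * B ^ 7 * (8 ^ d * (ρ / S) ^ d)) hρ0 (by positivity)
      (fun c hc => ⟨by linarith [(Finset.mem_filter.1 hc).2.1], (Finset.mem_filter.1 hc).2.2⟩)
      fun r hr0 hr => by
        by_cases hr' : S / 8 ≤ r
        · refine (hcard _ r r fun c _ h' => h').trans ((H2 r (by nlinarith)).trans ?_)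
          rw [Real.rpow_natCast, mul_assoc (C₁ * B ^ 7), mul_assoc (8 ^ d), ← mul_pow (ρ / S),
            show ρ / S * (r / ρ) = r / S by field_simp]
          exact mul_le_mul_of_nonneg_left (hprd r hr' (hr.trans hρ2)) (by positivity)
        · rw [Finset.filter_eq_empty_iff.2 fun c hc h' =>
            hr' ((Finset.mem_filter.1 hc).2.1.trans h'), Finset.card_empty, Nat.cast_zero]
          positivity
    calc _ ≤ ∑ c ∈ s.filter (fun c => S / 8 ≤ l c ∧ l c ≤ ρ),
            C0 * (3 / ρ) ^ h * (ρ / l c) ^ h := by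
          refine Finset.sum_le_sum fun c hc => ?_
          have h3 := (Finset.mem_filter.1 hc).2.1
          have h4 : 0 < l c := by linarith
          refine (hI0 K (3 * l c) u (p c) hK h4 (by linarith [hτl c])).trans (le_of_eq ?_)
          rw [pow_zero, mul_one, mul_assoc C0, ← Real.mul_rpow (by positivity) (by positivity)]
          congr 2
          change 3 * l c / l c ^ 2 = _
          field_simp
      _ ≤ C0 * (3 / ρ) ^ h * (CB * (C₁ * B ^ 7 * (8 ^ d * (ρ / S) ^ d))) := by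
          rw [← Finset.mul_sum]
          exact mul_le_mul_of_nonneg_left h1 (by positivity)
      _ = _ := by ring
  have hSC : ∑ c ∈ s.filter (fun c => ρ ≤ l c), I c ≤
      C2 * 3 ^ (d + 2) * CC * (C₁ * 8 ^ d) * ((3 / ρ) ^ h * (B ^ 7 * (ρ / S) ^ d)) := by
    have h1 := hC ι (s.filter fun c => ρ ≤ l c) l ρ
      (C₁ * B ^ 7 * (8 ^ d * (ρ / S) ^ d)) hρ0 (by positivity)
      (fun c hc => (Finset.mem_filter.1 hc).2) fun r hr => by
        refine (hcard _ r r fun c _ h' => h').trans ((H2 r (by linarith)).trans ?_)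
        have h2 := hprd' ρ (r / ρ) hρ0.le ((one_le_div hρ0).2 hr)
        rw [div_mul_cancel₀ _ hρ0.ne'] at h2
        rw [Real.rpow_natCast, mul_assoc (C₁ * B ^ 7), mul_comm (8 ^ d * _)]
        exact mul_le_mul_of_nonneg_left (h2.trans (mul_le_mul_of_nonneg_left
          (hprd ρ (by linarith) hρ2) (pow_nonneg (div_nonneg (by linarith) hρ0.le) _)))
          (by positivity)
    calc _ ≤ ∑ c ∈ s.filter (fun c => ρ ≤ l c),
            C2 * (3 / ρ) ^ h * 3 ^ (d + 2) * (ρ / l c) ^ ((d + 2 : ℕ) : ℝ) := by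
          refine Finset.sum_le_sum fun c hc => ?_
          have h3 := (Finset.mem_filter.1 hc).2
          have h4 : 0 < l c := by linarith
          refine (hI2 K (3 * ρ) u (p c) hK h4 (by linarith [hτ _ c hc])).trans ?_
          rw [Real.rpow_natCast, mul_assoc, mul_assoc C2, ← mul_pow, mul_div_assoc 3 ρ (dist _ _)]
          refine mul_le_mul_of_nonneg_left (mul_le_mul_of_nonneg_right
            (Real.rpow_le_rpow (by positivity) ?_ hh0) (by positivity)) hC2
          change 3 * ρ / l c ^ 2 ≤ _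
          rw [div_le_div_iff₀ (by positivity) hρ0]
          nlinarith
      _ ≤ C2 * (3 / ρ) ^ h * 3 ^ (d + 2) * (CC * (C₁ * B ^ 7 * (8 ^ d * (ρ / S) ^ d))) := by
          rw [← Finset.mul_sum]
          exact mul_le_mul_of_nonneg_left h1 (by positivity)
      _ = _ := by ring
  have hsplit : ∑ c ∈ far, I c ≤ ∑ c ∈ s.filter (fun c => r₀ ≤ l c ∧ l c ≤ S / 8), I c +
      (∑ c ∈ s.filter (fun c => S / 8 ≤ l c ∧ l c ≤ ρ), I c +
        ∑ c ∈ s.filter (fun c => ρ ≤ l c), I c) := by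
    simp only [far, Finset.sum_filter, ← Finset.sum_add_distrib]
    refine Finset.sum_le_sum fun c _ => ?_
    have := hI c
    simp only [le_min_iff]
    split_ifs <;> first | linarith | (exfalso; simp only [not_and_or, not_le] at *; grind)
  have hmark := mul_meas_ge_le_integral_of_nonneg (μ := volume.restrict (closedBall (0 : V d) 3))
    (f := fun ζ => ∑ c ∈ far, Gs K (Real.pi / 8) u (p c) ζ)
    (.of_forall fun ζ => Finset.sum_nonneg fun c _ => Gs_nonneg hK0 _ _ _ _)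
    (integrable_finsetSum _ fun c _ => hint c) (μ / 2)
  rw [integral_finsetSum _ fun c _ => hint c] at hmark
  refine ⟨(volume.restrict (closedBall (0 : V d) 3)).real
    {ζ | μ / 2 ≤ ∑ c ∈ far, Gs K (Real.pi / 8) u (p c) ζ}, ?_, ?_⟩
  · have : IsFiniteMeasure (volume.restrict (closedBall (0 : V d) 3)) :=
      isFiniteMeasure_restrict.2 measure_closedBall_lt_top.ne
    rw [ofReal_measureReal (measure_ne_top _ _), Measure.restrict_apply' measurableSet_closedBall]
    refine measure_mono fun ζ hζ => ⟨?_, mem_closedBall_zero_iff.2 hζ.1⟩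
    have h1 := Finset.sum_filter_add_sum_filter_not s (fun c => l c ≤ min r₀ (S / 8))
      fun c => Gs K (Real.pi / 8) u (p c) ζ
    have h2 : ∑ c ∈ s.filter (fun c => l c ≤ min r₀ (S / 8)), Gs K (Real.pi / 8) u (p c) ζ ≤
        μ / 2 := by
      refine (Finset.sum_le_card_nsmul _ _ 1 fun c _ =>
        Gs_le_one hK0 (by positivity) _ _ _).trans ?_
      rw [nsmul_eq_mul, mul_one]
      refine le_trans (Nat.cast_le.2 (Finset.card_le_card fun c hc => ?_))
        ((H1 _ (le_min hr₀K (by linarith)) (min_le_right _ _)).trans ?_)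
      · simp only [hs, Finset.mem_filter] at hc
        exact Finset.mem_filter.2 ⟨hc.1.1, hc.2⟩
      · rw [← hr₀e]
        have : 0 ≤ min r₀ (S / 8) := le_min (by linarith) (by linarith)
        gcongr
        exact min_le_left _ _
    have h3 := hζ.2
    change μ / 2 ≤ _
    linarith
  · refine le_of_mul_le_mul_left (hmark.trans (hsplit.trans ?_)) (half_pos hμ)
    have h1 := mul_le_mul_of_nonneg_left hfin (show 0 ≤ C0 * CB * (C₁ * 8 ^ d) by positivity)
    have h2 := mul_le_mul_of_nonneg_left hfin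
      (show 0 ≤ C2 * 3 ^ (d + 2) * CC * (C₁ * 8 ^ d) by positivity)
    have h3 : μ / 2 * (2 * ((C0 * 3 ^ h * CB + C2 * 3 ^ h * 3 ^ (d + 2) * CC) * (C₁ * 8 ^ d)) *
        (1 / (B ^ 8 * μ))) = C0 * CB * (C₁ * 8 ^ d) * (3 ^ h * (1 / B ^ 8)) +
        C2 * 3 ^ (d + 2) * CC * (C₁ * 8 ^ d) * (3 ^ h * (1 / B ^ 8)) := by field_simp
    have h4 : 0 ≤ μ / 2 * (v * x ^ (-e)) := by positivity
    rw [mul_add, h3]
    nlinarith

end Crest.Agent.N76.II
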