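import Crest.Agent.N76.II.PDefs

/-! # Row 76: nets and packing for indexed families (helper16). -/

set_option autoImplicit false

open MeasureTheory Set Metric
open scoped ENNReal

namespace Crest.Agent.N76.II

open Crest.Agent.N76.Red (V)

/-- a finite family has a separated subfamily which is a net -/
theorem exists_net {ι α : Type*} [PseudoMetricSpace α] (s : Finset ι) (f : ι → α) {δ : ℝ}
    (hδ : 0 < δ) : ∃ t : Finset ι, t ⊆ s ∧ (∀ c ∈ t, ∀ c' ∈ t, c ≠ c' → δ ≤ dist (f c) (f c')) ∧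
      ∀ i ∈ s, ∃ c ∈ t, dist (f i) (f c) < δ := by
  classical
  set P : Finset ι → Prop := fun t => ∀ c ∈ t, ∀ c' ∈ t, c ≠ c' → δ ≤ dist (f c) (f c') with hP
  obtain ⟨t, ht, hmax⟩ := (s.powerset.filter P).exists_max_image Finset.card
    ⟨∅, by simp [hP]⟩
  obtain ⟨hts, htP⟩ := Finset.mem_filter.1 ht
  have hts' := Finset.mem_powerset.1 hts
  refine ⟨t, hts', htP, fun i hi => ?_⟩
  by_contra hcon
  push Not at hcon
  have hit : i ∉ t := fun h => by have := hcon i h; simp at this; linarith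
  have : insert i t ∈ s.powerset.filter P := by
    refine Finset.mem_filter.2 ⟨Finset.mem_powerset.2 (Finset.insert_subset hi hts'), ?_⟩
    intro c hc c' hc' hne
    rcases Finset.mem_insert.1 hc with h1 | h1
    · rcases Finset.mem_insert.1 hc' with h2 | h2
      · exact absurd (h1.trans h2.symm) hne
      · rw [h1]; exact hcon c' h2
    · rcases Finset.mem_insert.1 hc' with h2 | h2
      · rw [dist_comm, h2]; exact hcon c h1
      · exact htP c h1 c' h2 hne
  have h2 := hmax _ this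
  rw [Finset.card_insert_of_notMem hit] at h2
  omega

/-- packing in a finite dimensional normed space -/
theorem card_le_of_sep_gen {E : Type*} [NormedAddCommGroup E] [NormedSpace ℝ E]
    [FiniteDimensional ℝ E] {ι : Type*} (s : Finset ι) (f : ι → E) (x₀ : E) {r δ : ℝ} (hr : 0 ≤ r)
    (hδ : 0 < δ) (hs : ∀ c ∈ s, dist (f c) x₀ ≤ r)
    (h : ∀ c ∈ s, ∀ c' ∈ s, c ≠ c' → δ ≤ dist (f c) (f c')) :
    (s.card : ℝ) ≤ (2 * r / δ + 1) ^ Module.finrank ℝ E := by
  borelize E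
  set μ : Measure E := Measure.addHaar with hμ
  set n := Module.finrank ℝ E with hn
  set A := ⋃ c ∈ s, ball (f c) (δ / 2) with hA
  have D : Set.Pairwise (s : Set ι) (Function.onFun Disjoint fun c => ball (f c) (δ / 2)) := by
    rintro c hc c' hc' hcd
    apply ball_disjoint_ball
    have := h c hc c' hc' hcd
    linarith
  have A_subset : A ⊆ ball x₀ (r + δ / 2) := by
    refine iUnion₂_subset fun x hx => ?_
    apply ball_subset_ball'
    have := hs x hx
    linarith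
  have hρ : 0 < r + δ / 2 := by linarith
  have I : (s.card : ℝ≥0∞) * ENNReal.ofReal ((δ / 2 : ℝ) ^ n) * μ (ball (0 : E) 1) ≤
      ENNReal.ofReal ((r + δ / 2) ^ n) * μ (ball (0 : E) 1) :=
    calc (s.card : ℝ≥0∞) * ENNReal.ofReal ((δ / 2 : ℝ) ^ n) * μ (ball (0 : E) 1)
        = μ A := by
          rw [hA, measure_biUnion_finset D fun c _ => measurableSet_ball]
          have I : (0 : ℝ) < δ / 2 := by linarith
          simp only [Measure.addHaar_ball_of_pos μ _ I]
          simp only [Finset.sum_const, nsmul_eq_mul, mul_assoc, hn]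
      _ ≤ μ (ball x₀ (r + δ / 2)) := measure_mono A_subset
      _ = _ := by simp only [Measure.addHaar_ball_of_pos μ _ hρ, hn]
  have J : (s.card : ℝ≥0∞) * ENNReal.ofReal ((δ / 2 : ℝ) ^ n) ≤ ENNReal.ofReal ((r + δ / 2) ^ n) :=
    (ENNReal.mul_le_mul_iff_left (measure_ball_pos _ _ zero_lt_one).ne' measure_ball_lt_top.ne).1 I
  have K := ENNReal.toReal_le_of_le_ofReal (pow_nonneg hρ.le _) J
  rw [ENNReal.toReal_mul, ENNReal.toReal_natCast, ENNReal.toReal_ofReal (by positivity)] at K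
  have h2 : (2 * r / δ + 1) ^ n * (δ / 2 : ℝ) ^ n = (r + δ / 2) ^ n := by
    rw [← mul_pow]; congr 1; field_simp
  rw [← h2] at K
  exact le_of_mul_le_mul_right K (by positivity)

theorem finrank_st (d : ℕ) : Module.finrank ℝ (V d × ℝ) = d + 1 := by
  simp [Module.finrank_prod]

/-- packing in space-time -/
theorem card_le_of_sep_st {d : ℕ} {ι : Type*} (s : Finset ι) (f : ι → V d × ℝ) (x₀ : V d × ℝ)
    {r δ : ℝ} (hr : 0 ≤ r) (hδ : 0 < δ) (hs : ∀ c ∈ s, dist (f c) x₀ ≤ r)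
    (h : ∀ c ∈ s, ∀ c' ∈ s, c ≠ c' → δ ≤ dist (f c) (f c')) :
    (s.card : ℝ) ≤ (2 * r / δ + 1) ^ (d + 1) := by
  have := card_le_of_sep_gen s f x₀ hr hδ hs h
  rwa [finrank_st] at this

/-- packing in space -/
theorem card_le_of_sep_sp {d : ℕ} {ι : Type*} (s : Finset ι) (f : ι → V d) (x₀ : V d)
    {r δ : ℝ} (hr : 0 ≤ r) (hδ : 0 < δ) (hs : ∀ c ∈ s, dist (f c) x₀ ≤ r)
    (h : ∀ c ∈ s, ∀ c' ∈ s, c ≠ c' → δ ≤ dist (f c) (f c')) :
    (s.card : ℝ) ≤ (2 * r / δ + 1) ^ d := by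
  have := card_le_of_sep_gen s f x₀ hr hδ hs h
  simpa using this

/-- the ball of radius `3` is covered by `7 ^ d` unit balls -/
theorem exists_cover_three (d : ℕ) : ∃ F : Finset (V d), (F.card : ℝ) ≤ 7 ^ d ∧
    ∀ ξ : V d, ‖ξ‖ ≤ 3 → ∃ ζ ∈ F, ‖ξ - ζ‖ ≤ 1 := by
  classical
  set P : ℕ → Prop := fun k => ∃ Y : Finset (V d), (∀ y ∈ Y, ‖y‖ ≤ 3) ∧
    (∀ c ∈ Y, ∀ c' ∈ Y, c ≠ c' → 1 ≤ dist c c') ∧ Y.card = k with hP
  have hle' : ∀ Y : Finset (V d), (∀ y ∈ Y, ‖y‖ ≤ 3) →
      (∀ c ∈ Y, ∀ c' ∈ Y, c ≠ c' → 1 ≤ dist c c') → (Y.card : ℝ) ≤ 7 ^ d := by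
    intro Y h1 h2
    have := card_le_of_sep_sp Y id 0 (by norm_num : (0 : ℝ) ≤ 3) one_pos
      (fun c hc => by simpa using h1 c hc) h2
    norm_num at this
    exact this
  have hle : ∀ k, P k → k ≤ 7 ^ d := by
    rintro k ⟨Y, h1, h2, rfl⟩
    exact_mod_cast hle' Y h1 h2
  have h0 : P 0 := ⟨∅, by simp, by simp, rfl⟩
  obtain ⟨Y, h1, h2, h3⟩ : P (Nat.findGreatest P (7 ^ d)) :=
    Nat.findGreatest_spec (Nat.zero_le _) h0
  refine ⟨Y, hle' Y h1 h2, fun ξ hξ => ?_⟩
  by_contra hcon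
  push Not at hcon
  have hxY : ξ ∉ Y := fun h => by have := hcon ξ h; simp at this; linarith
  have hP' : P (Y.card + 1) := by
    refine ⟨insert ξ Y, ?_, ?_, Finset.card_insert_of_notMem hxY⟩
    · intro y hy
      rcases Finset.mem_insert.1 hy with rfl | hy
      · exact hξ
      · exact h1 y hy
    · intro c hc c' hc' hne
      rcases Finset.mem_insert.1 hc with e1 | e1
      · rcases Finset.mem_insert.1 hc' with e2 | e2
        · exact absurd (e1.trans e2.symm) hne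
        · rw [dist_eq_norm, e1]; exact (hcon c' e2).le
      · rcases Finset.mem_insert.1 hc' with e2 | e2
        · rw [dist_comm, dist_eq_norm, e2]; exact (hcon c e1).le
        · exact h2 c e1 c' e2 hne
  have := Nat.le_findGreatest (hle _ hP') hP'
  omega

end Crest.Agent.N76.II
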