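import Crest.Agent.N76.G.Defs

/-! # Row 76 (S0101): interfaces between the lossy part I and the lossless part II (helper16).

Part I proves `TI n`, `DZ d`, `SG d`.  Part II proves `SS (d+1)` from them:
`SS ⇐ TI + TII`, `TII ⇐ TI + LP + St`, `LP ⇐ DZ + SG`. -/

set_option autoImplicit false

open MeasureTheory Set Metric
open scoped ENNReal RealInnerProductSpace

namespace Crest.Agent.N76.II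

open Crest.Agent.N76.Red (V ph)
open Crest.Agent.N76.G

/-- `S = T^{1/(n+1)}`, `T = √R` -/
noncomputable def Ssc (n : ℕ) (R : ℝ) : ℝ := R ^ (1 / (2 * ((n : ℝ) + 1)))

/-- Bourgain profile: mass of an `r`-ball in the critical example -/
noncomputable def prof (n : ℕ) (R r : ℝ) : ℝ :=
  max r (max (r ^ n / Ssc n R ^ (n - 1)) (r ^ (n + 1) / Real.sqrt R))

/-- plank `|ν·x + 2 c t - y| ≤ θ` -/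
def plank {n : ℕ} (ν : V n) (c y θ : ℝ) : Set (V n × ℝ) := {z | |⟪ν, z.1⟫ + 2 * c * z.2 - y| ≤ θ}

/-- finite graphs over a `1`-separated set, inside the ball of radius `R` (as in `SS`) -/
def Graph {n : ℕ} (R : ℝ) (X : Finset (V n × ℝ)) : Prop :=
  (∀ z ∈ X, ‖z.1‖ ≤ R ∧ |z.2| ≤ R) ∧ ∀ z ∈ X, ∀ z' ∈ X, z ≠ z' → 1 ≤ ‖z.1 - z'.1‖

/-- **Theorem I** (power gain off the Bourgain profile). -/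
def TI (n : ℕ) : Prop :=
  ∀ α : ℝ, 0 < α → ∃ δ C : ℝ, 0 < δ ∧ 0 ≤ C ∧ ∀ R : ℝ, 1 ≤ R →
    ∀ X : Finset (V n × ℝ), Graph R X →
    ∀ H : L2 n, (∀ᵐ ξ : V n, 1 < ‖ξ‖ → H ξ = 0) →
    ((∃ r, 1 ≤ r ∧ r ≤ Real.sqrt R ∧ Cov X id r (R ^ ((n : ℝ) - α) / prof n R r)) ∨
     (∀ (ν : V n) (c y : ℝ), ‖ν‖ = 1 →
        R ^ ((n : ℝ) - α) ≤ ms X id (fun _ => 1) (plank ν c y (R ^ α * Real.sqrt R)) →
        ∀ᵐ ξ : V n, |⟪ν, ξ⟫ - c| ≤ R ^ α / Real.sqrt R → H ξ = 0) ∨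
     (∃ s, 1 ≤ s ∧ s ≤ Ssc n R ∧ ∃ F : Finset (V n), (F.card : ℝ) ≤ s ^ (n - 1) * R ^ (-α) ∧
        ∀ᵐ ξ : V n, H ξ ≠ 0 → ∃ c ∈ F, ‖ξ - c‖ ≤ 1 / s)) →
    En X id (fun _ => 1) (fun _ => H) ≤ C * R ^ ((n : ℝ) / (n + 1) - δ) * ‖H‖ ^ 2

/-- **Du–Zhang** fractal `L²` estimate in `ℝ^{d+1}` for `d`-dimensional weights. -/
def DZ (d : ℕ) : Prop :=
  ∀ ε : ℝ, 0 < ε → ∃ C : ℝ, 0 ≤ C ∧ ∀ R : ℝ, 1 ≤ R →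
    ∀ (ι : Type) (X : Finset ι) (p : ι → V d × ℝ) (w : ι → ℝ) (u : V d × ℝ),
    (∀ i ∈ X, 0 ≤ w i) → (∀ i ∈ X, p i ∈ closedBall u R) →
    (∀ c r, 1 ≤ r → ms X p w (closedBall c r) ≤ r ^ d) →
    ∀ H : L2 d, En X p w (fun _ => H) ≤ C * R ^ ((d : ℝ) / (d + 1) + ε) * ‖H‖ ^ 2

/-- **Sparse gain** (refined decoupling for a tower with external sets `A`, levels `i … M`, one top
window): near every point the lines allowed at level `i` have directions in at most `φ (b^j)^d`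
caps of radius `b^{-j}`, `j ≤ i`. -/
def SG (d : ℕ) : Prop :=
  ∀ ε : ℝ, 0 < ε → ∀ m : ℕ, ∃ M₀ : ℕ, ∀ M : ℕ, M₀ ≤ M → ∃ b₀ : ℕ, ∀ b : ℕ, b₀ ≤ b →
    ∀ j i : ℕ, j ≤ i → i ≤ M →
    ∀ (ι : Type) (X : Finset ι) (p : ι → V d × ℝ) (w : ι → ℝ) (k₀ : ℤ),
    (∀ z ∈ X, 0 ≤ w z) → (∀ z ∈ X, p z ∈ closedBall (0 : V d × ℝ) ((b : ℝ) ^ (4 * M))) →
    (∀ z ∈ X, win b M (p z).2 = k₀) →
    ∀ (A : ℕ → ℤ → Set (Ph d)), (∀ l k, MeasurableSet (A l k)) →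
    (∀ l k, ∀ β ∈ A l k, ‖β.2‖ ≤ 3) →
    ∀ φ N₁ N₂ : ℝ, 0 ≤ φ → 0 ≤ N₁ → 0 ≤ N₂ →
    (∀ c, ms X p w (closedBall c ((b : ℝ) ^ (2 * j))) ≤ N₁) →
    (∀ c, ms X p w (closedBall c ((b : ℝ) ^ M)) ≤ N₂) →
    (∀ z ∈ X, ∃ F : Finset (V d), (F.card : ℝ) ≤ φ * ((b : ℝ) ^ j) ^ d ∧
      ∀ β ∈ A i (win b i (p z).2), ‖pos (p z).2 β - (p z).1‖ ≤ (b : ℝ) ^ (i + 1) →
        ∃ ζ ∈ F, ‖β.2 - ζ‖ ≤ 1 / (b : ℝ) ^ j) →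
    ∀ h : L2 d, En X p w (fun z => tower b A i M h (p z).2) ≤
      ((b : ℝ) ^ (ε * M) * φ * N₁ ^ ((d : ℝ) / (d + 2)) * ((b : ℝ) ^ M * N₂) ^ (2 / ((d : ℝ) + 2))
        + (∑ z ∈ X, w z) / (b : ℝ) ^ (m * M)) * ‖h‖ ^ 2

/-- **Theorem II** (`n = d + 1`, lossless, flat slabs with normal `e₀`). -/
def TII (d : ℕ) : Prop :=
  ∃ α₀ : ℝ, 0 < α₀ ∧ ∀ α : ℝ, 0 < α → α ≤ α₀ → ∃ c C : ℝ, 0 < c ∧ 0 ≤ C ∧ ∀ R : ℝ, 1 ≤ R →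
    ∀ X : Finset (V (d + 1) × ℝ), Graph R X →
    ∀ (c₀ : ℝ) (Y : Finset ℝ), (Y.card : ℝ) ≤ R ^ α →
    (∀ z ∈ X, ∃ y ∈ Y, |z.1 0 + 2 * c₀ * z.2 - y| ≤ R ^ α * Real.sqrt R) →
    ∀ H : L2 (d + 1), (∀ᵐ ξ : V (d + 1), 1 < ‖ξ‖ → H ξ = 0) →
    (∀ᵐ ξ : V (d + 1), R ^ α / Real.sqrt R < |ξ 0 - c₀| → H ξ = 0) →
    En X id (fun _ => 1) (fun _ => H) ≤ C * R ^ (((d : ℝ) + 1) / (d + 2)) *
      (((X.card : ℝ) / R ^ (d + 1)) ^ c + R ^ (-c)) * ‖H‖ ^ 2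

/-- the one dimensional propagator -/
noncomputable def U1 (t : ℝ) (c : ℝ → ℂ) (y : ℝ) : ℂ := ∫ η : ℝ, c η * ph (y * η + t * η ^ 2)

/-- **One dimensional weighted Strichartz lemma** with a gain from the average column mass. -/
def St : Prop :=
  ∀ q : ℝ, 1 < q → ∃ C : ℝ, 0 ≤ C ∧ ∀ R L r l A : ℝ, 0 < L → L ≤ R → 0 < r → r + R / r ≤ l →
    0 ≤ A → ∀ (I : Finset ℤ), (∀ k ∈ I, |(k : ℝ) * L| ≤ 2 * R) →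
    ∀ (W : ℤ → ℝ → ℝ) (M : ℤ → ℝ), (∀ k, Measurable (W k)) → (∀ k y, 0 ≤ W k y) →
    (∀ k ∈ I, 0 ≤ M k ∧ M k ≤ A) →
    (∀ k ∈ I, ∀ y₀ : ℝ, ∫⁻ y in Icc y₀ (y₀ + l), ENNReal.ofReal (W k y ^ q) ≤ ENNReal.ofReal (M k)) →
    ∀ c : ℝ → ℂ, MemLp c 2 volume → (∀ η, 1 / r < |η| → c η = 0) →
    ∑ k ∈ I, ∫⁻ y, ENNReal.ofReal (L * W k y * ‖U1 (k * L) c y‖ ^ 2) ≤
      ENNReal.ofReal (C * (R ^ (1 - 1 / (2 * q)) * (A * (L / R * ∑ k ∈ I, M k)) ^ (1 / (2 * q))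
        + L * (A / r) ^ (1 / q)) * ∫ η, ‖c η‖ ^ 2)

/-! ### the `d`-dimensional lemma in one window -/

variable {d : ℕ}

/-- smooth density at scale `r` -/
noncomputable def dens {ι : Type*} (X : Finset ι) (p : ι → V d × ℝ) (w : ι → ℝ) (r : ℝ)
    (u : V d × ℝ) : ℝ :=
  (∑ i ∈ X, w i * Real.exp (-(dist u (p i) / r))) / r ^ (d + 1)

/-- `V_r = dens_r ^ (2/(d+2))` -/
noncomputable def vv {ι : Type*} (X : Finset ι) (p : ι → V d × ℝ) (w : ι → ℝ) (r : ℝ)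
    (u : V d × ℝ) : ℝ :=
  dens X p w r u ^ (2 / ((d : ℝ) + 2))

/-- sliced profile `max (1, (r/S)^d, r^{d+1}/T)`; `prof (d+1) R r = r * prd d R r` -/
noncomputable def prd (d : ℕ) (R r : ℝ) : ℝ :=
  max 1 (max ((r / Ssc (d + 1) R) ^ d) (r ^ (d + 1) / Real.sqrt R))

/-- integral of a space-time weight along the line `β` during `[t₁, t₂]` -/
noncomputable def xray (W : V d × ℝ → ℝ) (t₁ t₂ : ℝ) (β : Ph d) : ℝ :=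
  ∫ t in t₁..t₂, W (pos t β, t)

/-- **Lemma P**.  `L = b^(2M)`, `T = √R`, `ρ = S²`.  The exceptional set `E` does not depend on the
function; `E k` is covered by few balls of radius `2^k`. -/
def LP (d : ℕ) : Prop :=
  ∃ α₀ : ℝ, 0 < α₀ ∧ ∃ c : ℝ, 0 < c ∧ ∀ α : ℝ, 0 < α → ∃ M : ℕ, 1 ≤ M ∧
    ∃ C R₀ : ℝ, 0 ≤ C ∧ 1 ≤ R₀ ∧ ∀ R : ℝ, R₀ ≤ R → ∀ B : ℝ, R ^ α ≤ B → B ≤ R ^ α₀ →
    ∀ b : ℕ,
    R / B ≤ (b : ℝ) ^ (2 * M) → (b : ℝ) ^ (2 * M) ≤ R →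
    ∀ (ι : Type) (X : Finset ι) (p : ι → V d × ℝ) (w : ι → ℝ) (k₀ : ℤ),
    (∀ z ∈ X, 0 ≤ w z) → (∀ z ∈ X, p z ∈ closedBall (0 : V d × ℝ) R) →
    (∀ z ∈ X, win b M (p z).2 = k₀) →
    (∀ u r, 1 ≤ r → r ≤ Ssc (d + 1) R → ms X p w (closedBall u r) ≤ r ^ d) →
    (∀ u r, 1 ≤ r → ms X p w (closedBall u r) ≤ B * prd d R r) →
    ∃ E : ℕ → Finset ι,
      (∀ k, (E k).Nonempty → (2 : ℝ) ^ k ≤ Real.sqrt R / B) ∧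
      (∀ k, Cov (E k) p (2 ^ k)
        (R ^ d * (b : ℝ) ^ (2 * M) / (B * Real.sqrt R * prd d R (2 ^ k)))) ∧
      ∀ X' : Finset ι, X' ⊆ X → (∀ z ∈ X', ∀ k, z ∉ E k) →
      ∀ (𝓡 : Set (Ph d)) (φ₀ : ℝ), MeasurableSet 𝓡 → (∀ β ∈ 𝓡, ‖β.2‖ ≤ 2) → 0 ≤ φ₀ →
      (∀ z ∈ X', ∃ Φ : Set (V d), MeasurableSet Φ ∧ volume Φ ≤ ENNReal.ofReal φ₀ ∧
        ∀ β ∈ 𝓡, ‖pos (p z).2 β - (p z).1‖ ≤ B * Real.sqrt R →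
          closedBall β.2 (1 / B ^ 22) ⊆ Φ) →
      ∀ g : L2 d, En X' p w (fun _ => loc (Real.sqrt R) 0 𝓡 g) ≤
        C * φ₀ ^ c * (∫ β in 𝓡, xray (vv X p w ((b : ℝ) ^ (2 * M) / B ^ 20))
            ((k₀ - 1) * (b : ℝ) ^ (2 * M)) ((k₀ + 2) * (b : ℝ) ^ (2 * M)) β *
            ‖co (Real.sqrt R) 0 g β‖ ^ 2)
        + C * ((b : ℝ) ^ (2 * M) / (B * Ssc (d + 1) R ^ 2)) * ‖g‖ ^ 2

end Crest.Agent.N76.II
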