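import Crest.Agent.N76.II.PDefs
import Crest.Agent.N76.II.Net
import Crest.Agent.N76.G.Iso
import Crest.Agent.N76.G.Gam

/-! # Row 76: CD, step 1: a weak fractal `L²` bound from `SG` (helper73). -/

set_option autoImplicit false

open MeasureTheory Set Metric
open scoped ENNReal RealInnerProductSpace ComplexConjugate

namespace Crest.Agent.N76.II

open Crest.Agent.N76.Red (V)
open Crest.Agent.N76.G

variable {d : ℕ}

namespace CD

/-- mass of the lines with direction in `A`, by a pointwise comparison on the frequency side -/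
lemma freq_cmp {a : ℝ} (ha : 0 < a) (t : ℝ) {A : Set (V d)} (hA : MeasurableSet A)
    (φ ψ : L2 d) {c : ℝ} (hc : 0 ≤ c)
    (h : ∀ᵐ ξ, ∀ ζ ∈ A, Real.exp (-Real.pi * a ^ 2 * ‖ξ - ζ‖ ^ 2) * ‖φ ξ‖ ^ 2 ≤ c * ‖ψ ξ‖ ^ 2) :
    ∫ β in {β : Ph d | β.2 ∈ A}, ‖co a t φ β‖ ^ 2 ≤ c * 2 ^ d * ‖ψ‖ ^ 2 := by
  have hpi := Real.pi_pos
  set a' := a / Real.sqrt 2 with ha'
  have ha'0 : 0 < a' := by positivity
  have ha'2 : 2 * a' ^ 2 = a ^ 2 := by
    rw [ha', div_pow, Real.sq_sqrt (by norm_num)]; ring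
  have hAm : MeasurableSet {β : Ph d | β.2 ∈ A} := measurable_snd hA
  rw [← integral_co_sq ha'0 t, ← integral_const_mul, ← integral_indicator hAm]
  have i1 := (Iso.integrable_co_sq ha t φ).indicator hAm
  have i2 := (Iso.integrable_co_sq ha'0 t ψ).const_mul (c * 2 ^ d)
  rw [Measure.volume_eq_prod] at i1 i2 ⊢
  rw [integral_prod_symm _ i1, integral_prod_symm _ i2]
  refine integral_mono i1.integral_prod_right i2.integral_prod_right fun ζ => ?_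
  by_cases hζ : ζ ∈ A
  · have e1 : ∀ y : V d, {β : Ph d | β.2 ∈ A}.indicator (fun β => ‖co a t φ β‖ ^ 2) (y, ζ) =
        ‖co a t φ (y, ζ)‖ ^ 2 :=
      fun y => indicator_of_mem (show (y, ζ) ∈ {β : Ph d | β.2 ∈ A} from hζ) _
    simp only [e1]
    rw [integral_const_mul, (integral_co_sq_fst ha t φ ζ).2,
      (integral_co_sq_fst ha'0 t ψ ζ).2, ha'2, Real.mul_rpow (by norm_num) (by positivity)]
    have e2 : (2 : ℝ) ^ ((d : ℝ) / 2) ≤ 2 ^ d := by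
      rw [← Real.rpow_natCast]
      exact Real.rpow_le_rpow_of_exponent_le one_le_two (by linarith [Nat.cast_nonneg (α := ℝ) d])
    have e3 : ∫ ξ, Real.exp (-2 * Real.pi * a ^ 2 * ‖ξ - ζ‖ ^ 2) * ‖φ ξ‖ ^ 2 ≤
        c * ∫ ξ, Real.exp (-2 * Real.pi * a' ^ 2 * ‖ξ - ζ‖ ^ 2) * ‖ψ ξ‖ ^ 2 := by
      rw [← integral_const_mul]
      refine integral_mono_of_nonneg (.of_forall fun ξ => by positivity) ?_ ?_
      · refine Integrable.const_mul ?_ _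
        refine (Iso.integrable_norm_sq_L2 ψ).bdd_mul (c := 1)
          (Continuous.aestronglyMeasurable (by fun_prop)) (.of_forall fun ξ => ?_)
        rw [Real.norm_of_nonneg (Real.exp_pos _).le]
        refine Real.exp_le_one_iff.2 ?_
        have : 0 ≤ 2 * Real.pi * a' ^ 2 * ‖ξ - ζ‖ ^ 2 := by positivity
        linarith
      · filter_upwards [h] with ξ h1
        have f5 : -2 * Real.pi * a' ^ 2 = -Real.pi * a ^ 2 := by rw [← ha'2]; ring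
        rw [f5, show -2 * Real.pi * a ^ 2 * ‖ξ - ζ‖ ^ 2 = -Real.pi * a ^ 2 * ‖ξ - ζ‖ ^ 2 +
          -Real.pi * a ^ 2 * ‖ξ - ζ‖ ^ 2 by ring, Real.exp_add, mul_assoc, mul_left_comm c]
        exact mul_le_mul_of_nonneg_left (h1 ζ hζ) (Real.exp_pos _).le
    calc _ ≤ 2 ^ d * (a ^ 2) ^ ((d : ℝ) / 2) * (c *
          ∫ ξ, Real.exp (-2 * Real.pi * a' ^ 2 * ‖ξ - ζ‖ ^ 2) * ‖ψ ξ‖ ^ 2) := by
          gcongr
      _ = _ := by ring
  · have e1 : ∀ y : V d, {β : Ph d | β.2 ∈ A}.indicator (fun β => ‖co a t φ β‖ ^ 2) (y, ζ) = 0 :=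
      fun y => indicator_of_notMem (show (y, ζ) ∉ {β : Ph d | β.2 ∈ A} from hζ) _
    simp only [e1, integral_zero]
    positivity

lemma inner_pt (z : V d × ℝ) (H : L2 d) :
    inner ℂ (pt z) H = ∫ ξ, (((2 : ℝ) ^ ((d : ℝ) / 4) : ℝ) : ℂ) *
      Complex.exp (-(Real.pi : ℂ) * (1 - 2 * (z.2 : ℂ) * Complex.I) * ((‖ξ‖ ^ 2 : ℝ) : ℂ) +
        2 * (Real.pi : ℂ) * Complex.I * ((⟪z.1, ξ⟫ : ℝ) : ℂ)) * H ξ := by
  rw [pt, ← co, co_eq one_pos]
  simp only [conj_gamF, one_pow, mul_one, sub_zero, Complex.ofReal_one]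

lemma norm_sq_toLp {f : V d → ℂ} (hf : MemLp f 2 (volume : Measure (V d))) :
    ‖hf.toLp f‖ ^ 2 = ∫ ξ, ‖f ξ‖ ^ 2 := by
  rw [← Iso.integral_norm_sq_L2]
  exact integral_congr_ae (hf.coeFn_toLp.mono fun ξ hξ => by simp only [hξ])

/-- translation and parabolic rescaling -/
lemma exists_rescale {Λ : ℝ} (hΛ : 1 ≤ Λ) (u : V d × ℝ) (H : L2 d) :
    ∃ H' G : L2 d, (∀ z : V d × ℝ, inner ℂ (pt z) H =
        inner ℂ (pt (Λ • (z.1 - u.1), Λ ^ 2 * (z.2 - u.2))) H') ∧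
      ‖G‖ ^ 2 = Λ ^ d * ‖H‖ ^ 2 ∧
      ∀ᵐ ξ, ‖H' ξ‖ = Real.exp (-(Real.pi * (Λ ^ 2 - 1)) * ‖ξ‖ ^ 2) * ‖G ξ‖ := by
  have hΛ0 : 0 < Λ := by linarith
  have hpi := Real.pi_pos
  set g : V d → ℂ := fun ξ => ((Λ ^ d : ℝ) : ℂ) *
    Complex.exp (((2 * Real.pi * (u.2 * Λ ^ 2 * ‖ξ‖ ^ 2 + Λ * ⟪u.1, ξ⟫) : ℝ) : ℂ) * Complex.I) *
      H (Λ • ξ) with hg
  have hn : ∀ ξ, ‖g ξ‖ = Λ ^ d * ‖H (Λ • ξ)‖ := fun ξ => by
    rw [hg, norm_mul, norm_mul, Complex.norm_exp_ofReal_mul_I, mul_one, Complex.norm_real,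
      Real.norm_of_nonneg (by positivity)]
  have hq : Measure.QuasiMeasurePreserving (fun ξ : V d => Λ • ξ) volume volume := by
    refine ⟨by fun_prop, ?_⟩
    rw [Measure.map_addHaar_smul volume hΛ0.ne']
    exact Measure.smul_absolutelyContinuous
  have hm : AEStronglyMeasurable g volume :=
    (Continuous.aestronglyMeasurable (by fun_prop)).mul
      ((Lp.aestronglyMeasurable H).comp_quasiMeasurePreserving hq)
  have hi : Integrable (fun ξ => ‖H (Λ • ξ)‖ ^ 2) :=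
    (Iso.integrable_norm_sq_L2 H).comp_smul hΛ0.ne'
  have hg2 : MemLp g 2 volume := by
    rw [memLp_two_iff_integrable_sq_norm hm]
    refine (hi.const_mul ((Λ ^ d) ^ 2)).congr (.of_forall fun ξ => ?_)
    simp only [hn, mul_pow]
  set m : V d → ℝ := fun ξ => Real.exp (-(Real.pi * (Λ ^ 2 - 1)) * ‖ξ‖ ^ 2) with hmd
  have hm1 : ∀ ξ, m ξ ≤ 1 := fun ξ => by
    refine Real.exp_le_one_iff.2 ?_
    have : 0 ≤ Λ ^ 2 - 1 := by nlinarith
    have : 0 ≤ Real.pi * (Λ ^ 2 - 1) * ‖ξ‖ ^ 2 := by positivity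
    linarith
  have hn' : ∀ ξ, ‖(m ξ : ℂ) * g ξ‖ = m ξ * ‖g ξ‖ := fun ξ => by
    rw [norm_mul, Complex.norm_real, Real.norm_of_nonneg (Real.exp_pos _).le]
  have hh2 : MemLp (fun ξ => (m ξ : ℂ) * g ξ) 2 volume := by
    refine hg2.of_le ((Continuous.aestronglyMeasurable (by fun_prop)).mul hm)
      (.of_forall fun ξ => ?_)
    rw [hn']
    exact mul_le_of_le_one_left (norm_nonneg _) (hm1 ξ)
  refine ⟨hh2.toLp _, hg2.toLp _, fun z => ?_, ?_, ?_⟩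
  · rw [inner_pt, inner_pt]
    have e1 := Measure.integral_comp_smul (μ := (volume : Measure (V d)))
      (fun ξ => (((2 : ℝ) ^ ((d : ℝ) / 4) : ℝ) : ℂ) *
      Complex.exp (-(Real.pi : ℂ) * (1 - 2 * (z.2 : ℂ) * Complex.I) * ((‖ξ‖ ^ 2 : ℝ) : ℂ) +
        2 * (Real.pi : ℂ) * Complex.I * ((⟪z.1, ξ⟫ : ℝ) : ℂ)) * H ξ) Λ
    have e2 : Module.finrank ℝ (V d) = d := by simp
    rw [e2, abs_of_nonneg (by positivity)] at e1
    have e3 : ∀ x y : ℂ, x = (Λ ^ d)⁻¹ • y → y = ((Λ ^ d : ℝ) : ℂ) * x := fun x y h => by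
      rw [h, Complex.real_smul, ← mul_assoc, ← Complex.ofReal_mul, mul_inv_cancel₀ (by positivity)]
      simp
    rw [e3 _ _ e1, ← integral_const_mul]
    refine integral_congr_ae (hh2.coeFn_toLp.mono fun ξ hξ => ?_)
    simp only
    rw [hξ]
    simp only [hg, hmd, norm_smul, Real.norm_of_nonneg hΛ0.le, inner_smul_left,
      inner_smul_right, inner_sub_left, Complex.ofReal_exp, conj_trivial]
    have : ∀ A B C D x y h : ℂ, A = B + C + D → y * (x * Complex.exp A * h) =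
        x * Complex.exp B * (Complex.exp C * (y * Complex.exp D * h)) := by
      intro A B C D x y h e
      rw [e, Complex.exp_add, Complex.exp_add]; ring
    refine this _ _ _ _ _ _ _ ?_
    push_cast; ring
  · rw [norm_sq_toLp]
    simp only [hn, mul_pow]
    rw [integral_const_mul, Measure.integral_comp_smul (μ := (volume : Measure (V d)))
      (fun ξ => ‖H ξ‖ ^ 2), Iso.integral_norm_sq_L2, abs_of_nonneg (by positivity)]
    simp only [finrank_euclideanSpace, Fintype.card_fin, smul_eq_mul]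
    field_simp
  · filter_upwards [hh2.coeFn_toLp, hg2.coeFn_toLp] with ξ h1 h2
    rw [h1, h2, hn']

lemma ms_mono {ι α β : Type*} (X : Finset ι) {p : ι → α} {q : ι → β} {w : ι → ℝ}
    (hw : ∀ z ∈ X, 0 ≤ w z) {E : Set α} {F : Set β} (h : ∀ z ∈ X, p z ∈ E → q z ∈ F) :
    ms X p w E ≤ ms X q w F := by
  classical
  unfold ms
  refine Finset.sum_le_sum_of_subset_of_nonneg (fun z hz => ?_)
    (fun z hz _ => hw z (Finset.mem_filter.1 hz).1)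
  rw [Finset.mem_filter] at hz ⊢
  exact ⟨hz.1, h z hz.1 hz.2⟩

lemma ms_eq_sum {ι α : Type*} (X : Finset ι) {p : ι → α} (w : ι → ℝ) {E : Set α}
    (h : ∀ z ∈ X, p z ∈ E) : ms X p w E = ∑ z ∈ X, w z := by
  classical
  unfold ms
  rw [Finset.filter_true_of_mem h]

lemma norm_pt (z : V d × ℝ) : ‖pt z‖ = 1 := norm_gam one_pos _ _

lemma aux_sq {w x y z : ℝ} (hw : 0 ≤ w) (h : x ≤ (y + z) ^ 2) :
    w * x ≤ 2 * (w * y ^ 2) + 2 * (w * z ^ 2) := by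
  have : x ≤ 2 * y ^ 2 + 2 * z ^ 2 := by nlinarith [sq_nonneg (y - z)]
  nlinarith [mul_le_mul_of_nonneg_left this hw]

lemma aux_far {b a : ℝ} (hb2 : 2 ≤ b) (e1 : b ≤ a ^ 2) {ξ ζ : V d} (hζ' : 3 < ‖ζ‖) :
    -Real.pi * a ^ 2 * ‖ξ - ζ‖ ^ 2 + 2 * (-(Real.pi * (b ^ 2 - 1)) * ‖ξ‖ ^ 2) ≤ -b := by
  have hpi := Real.pi_gt_three
  have e0 : 0 ≤ b ^ 2 - 1 := by nlinarith
  rcases le_or_gt 1 ‖ξ‖ with h1 | h1
  · have e2 : 1 ≤ ‖ξ‖ ^ 2 := one_le_pow₀ h1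
    have e3 : b ≤ Real.pi * (b ^ 2 - 1) := by nlinarith
    have e4 : 0 ≤ Real.pi * a ^ 2 * ‖ξ - ζ‖ ^ 2 := by positivity
    have e6 : Real.pi * (b ^ 2 - 1) ≤ Real.pi * (b ^ 2 - 1) * ‖ξ‖ ^ 2 :=
      le_mul_of_one_le_right (by positivity) e2
    linarith
  · have e2 : 1 ≤ ‖ξ - ζ‖ := by
      have := norm_sub_norm_le ζ ξ
      rw [norm_sub_rev] at this; linarith
    have e3 : 1 ≤ ‖ξ - ζ‖ ^ 2 := one_le_pow₀ e2
    have e4 : 0 ≤ Real.pi * (b ^ 2 - 1) * ‖ξ‖ ^ 2 := by positivity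
    have e5 : b ≤ Real.pi * a ^ 2 := by nlinarith
    have e6 : Real.pi * a ^ 2 ≤ Real.pi * a ^ 2 * ‖ξ - ζ‖ ^ 2 :=
      le_mul_of_one_le_right (by positivity) e3
    linarith

set_option maxHeartbeats 400000 in
/-- weak fractal bound: any exponent below `1` is enough -/
theorem dzw (hSG : SG d) : ∃ a₀ C : ℝ, 1 / 2 ≤ a₀ ∧ a₀ < 1 ∧ 0 ≤ C ∧
    ∀ (ι : Type) (X : Finset ι) (p : ι → V d × ℝ) (w : ι → ℝ) (u : V d × ℝ) (r₀ : ℝ), 1 ≤ r₀ →
    (∀ z ∈ X, 0 ≤ w z) → (∀ z ∈ X, dist (p z) u ≤ r₀) →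
    (∀ c r, 1 ≤ r → ms X p w (closedBall c r) ≤ r ^ d) →
    ∀ H : L2 d, En X p w (fun _ => H) ≤ C * r₀ ^ a₀ * ‖H‖ ^ 2 := by
  have hpi := Real.pi_gt_three
  have hd0 : (0 : ℝ) ≤ d := Nat.cast_nonneg d
  obtain ⟨M₀, hM₀⟩ := hSG (1 / ((d : ℝ) + 2)) (by positivity) (2 * d)
  obtain ⟨M, hM, hM2⟩ : ∃ M : ℕ, M₀ ≤ M ∧ (d + 2) ^ 2 + 1 ≤ M := ⟨max _ _, le_max_left _ _,
    le_max_right _ _⟩
  obtain ⟨b₀, hb₀⟩ := hM₀ M hM
  have hM2' : ((d : ℝ) + 2) ^ 2 + 1 ≤ M := by exact_mod_cast hM2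
  have hM5 : 5 ≤ M := le_trans (by nlinarith [Nat.zero_le d]) hM2
  have hM5' : (5 : ℝ) ≤ M := by exact_mod_cast hM5
  set e₁ : ℝ := M * (2 * d + 3) / (d + 2) with he₁
  have he₁0 : 0 ≤ e₁ := by positivity
  set κ : ℝ := 1 / (2 * M - 2) with hκ
  have hκ0 : 0 < κ := by rw [hκ]; apply one_div_pos.2; linarith
  have hκ1 : κ ≤ 1 := by rw [hκ, div_le_one (by linarith)]; linarith
  obtain ⟨F, hF, hF'⟩ := exists_cover_three d
  set C₁ : ℝ := 2 * (7 ^ d + 1) + 2 * (2 * M * d).factorial * 2 ^ d with hC₁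
  refine ⟨κ * (e₁ + d), C₁ * ((b₀ : ℝ) + 6) ^ (e₁ + d), ?_, ?_, by positivity, ?_⟩
  · rw [hκ, one_div_mul_eq_div, le_div_iff₀ (by linarith)]
    have : (M : ℝ) ≤ e₁ := by rw [he₁, le_div_iff₀ (by positivity)]; nlinarith
    linarith
  · rw [hκ, one_div_mul_eq_div, div_lt_one (by linarith)]
    have : e₁ < 2 * M - 2 - d := by rw [he₁, div_lt_iff₀ (by positivity)]; nlinarith
    linarith
  intro ι X p w u r₀ hr₀ hw hX hms H
  set b : ℕ := b₀ + 2 + ⌈(3 * r₀) ^ κ⌉₊ with hb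
  have hb2 : (2 : ℝ) ≤ b := by
    rw [hb]; push_cast
    linarith [Nat.cast_nonneg (α := ℝ) b₀, Nat.cast_nonneg (α := ℝ) ⌈(3 * r₀) ^ κ⌉₊]
  have hb1 : (1 : ℝ) ≤ b := by linarith
  have hbn : 1 ≤ b := by exact_mod_cast hb1
  have hrκ : 1 ≤ r₀ ^ κ := Real.one_le_rpow hr₀ hκ0.le
  have hbup : (b : ℝ) ≤ (b₀ + 6) * r₀ ^ κ := by
    have e1 : (⌈(3 * r₀) ^ κ⌉₊ : ℝ) < (3 * r₀) ^ κ + 1 := Nat.ceil_lt_add_one (by positivity)
    have e2 : (3 * r₀) ^ κ ≤ 3 * r₀ ^ κ := by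
      rw [Real.mul_rpow (by norm_num) (by linarith)]
      gcongr
      exact Real.rpow_le_self_of_one_le (by norm_num) hκ1
    rw [hb]; push_cast
    nlinarith [Nat.cast_nonneg (α := ℝ) b₀]
  have hblo : 3 * r₀ ≤ (b : ℝ) ^ (2 * M - 2) := by
    have e1 : (3 * r₀) ^ κ ≤ b := by
      rw [hb]; push_cast
      linarith [Nat.le_ceil ((3 * r₀) ^ κ), Nat.cast_nonneg (α := ℝ) b₀]
    have e2 : ((3 * r₀) ^ κ) ^ (2 * M - 2) = 3 * r₀ := by
      rw [← Real.rpow_natCast, ← Real.rpow_mul (by positivity), Nat.cast_sub (by omega)]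
      push_cast
      rw [hκ, one_div_mul_cancel (by linarith), Real.rpow_one]
    rw [← e2]
    exact pow_le_pow_left₀ (by positivity) e1 _
  have hb2M : (b : ℝ) ^ (2 * M) = b ^ 2 * b ^ (2 * M - 2) := by
    rw [← pow_add]; congr 1; omega
  obtain ⟨H', G, hH', hG, hHG⟩ := exists_rescale hb1 (u.1, u.2 - r₀) H
  set p' : ι → V d × ℝ := fun z => ((b : ℝ) • ((p z).1 - u.1), (b : ℝ) ^ 2 * ((p z).2 - (u.2 - r₀)))
    with hp'
  have hX1 : ∀ z ∈ X, ‖(p z).1 - u.1‖ ≤ r₀ := fun z hz => by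
    rw [← dist_eq_norm]; exact (le_max_left _ _).trans (hX z hz)
  have hX2 : ∀ z ∈ X, |(p z).2 - u.2| ≤ r₀ := fun z hz => by
    rw [← Real.dist_eq]; exact (le_max_right _ _).trans (hX z hz)
  have ht : ∀ z ∈ X, 0 ≤ (p' z).2 ∧ (p' z).2 < (b : ℝ) ^ (2 * M) := fun z hz => by
    have := abs_le.1 (hX2 z hz)
    refine ⟨mul_nonneg (by positivity) (by linarith), ?_⟩
    rw [hb2M]
    exact mul_lt_mul_of_pos_left (by linarith) (by positivity)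
  have hwin : ∀ z ∈ X, win b M (p' z).2 = 0 := fun z hz => by
    rw [win, Int.floor_eq_zero_iff]
    exact ⟨div_nonneg (ht z hz).1 (by positivity), (div_lt_one (by positivity)).2 (ht z hz).2⟩
  have h4M : (b : ℝ) ^ (2 * M) ≤ b ^ (4 * M) := pow_le_pow_right₀ hb1 (by omega)
  have hball : ∀ z ∈ X, p' z ∈ closedBall (0 : V d × ℝ) ((b : ℝ) ^ (4 * M)) := fun z hz => by
    rw [mem_closedBall_zero_iff, Prod.norm_def]
    refine (max_le ?_ ?_).trans h4M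
    · simp only [hp', norm_smul, Real.norm_of_nonneg (by linarith : (0 : ℝ) ≤ b)]
      rw [hb2M]
      exact mul_le_mul (by nlinarith) ((hX1 z hz).trans (by linarith)) (norm_nonneg _)
        (by positivity)
    · rw [Real.norm_of_nonneg (ht z hz).1]; exact (ht z hz).2.le
  have hms' : ∀ c r, 1 ≤ r → ms X p' w (closedBall c r) ≤ r ^ d := fun c r hr => by
    refine le_trans (ms_mono X hw fun z _ hz => ?_)
      (hms (u.1 + (b : ℝ)⁻¹ • c.1, u.2 - r₀ + c.2 / (b : ℝ) ^ 2) r hr)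
    rw [mem_closedBall, Prod.dist_eq, max_le_iff] at hz ⊢
    obtain ⟨h1, h2⟩ := hz
    simp only [hp', dist_eq_norm, Real.norm_eq_abs] at h1 h2 ⊢
    constructor
    · have : (p z).1 - (u.1 + (b : ℝ)⁻¹ • c.1) = (b : ℝ)⁻¹ • ((b : ℝ) • ((p z).1 - u.1) - c.1) := by
        rw [smul_sub, smul_smul, inv_mul_cancel₀ (by linarith), one_smul]; abel
      rw [this, norm_smul, Real.norm_of_nonneg (by positivity)]
      exact (mul_le_of_le_one_left (norm_nonneg _) (inv_le_one_of_one_le₀ hb1)).trans h1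
    · have : (p z).2 - (u.2 - r₀ + c.2 / (b : ℝ) ^ 2) =
          ((b : ℝ) ^ 2)⁻¹ * ((b : ℝ) ^ 2 * ((p z).2 - (u.2 - r₀)) - c.2) := by
        field_simp; ring
      rw [this, abs_mul, abs_of_nonneg (by positivity)]
      exact (mul_le_of_le_one_left (abs_nonneg _)
        (inv_le_one_of_one_le₀ (one_le_pow₀ hb1))).trans h2
  set A : Set (Ph d) := {β | ‖β.2‖ ≤ 3} with hA
  have hAm : MeasurableSet A := (isClosed_le (by fun_prop) continuous_const).measurableSet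
  have hS := hb₀ b (by omega) 0 M (Nat.zero_le _) le_rfl ι X p' w 0 hw hball hwin (fun _ _ => A)
    (fun _ _ => hAm) (fun _ _ β hβ => hβ) (7 ^ d) 1 (((b : ℝ) ^ M) ^ d) (by positivity)
    zero_le_one (by positivity) (fun c => by simpa using hms' c 1 le_rfl)
    (fun c => hms' c _ (one_le_pow₀ hb1))
    (fun z _ => ⟨F, by simpa using hF, fun β hβ _ => by simpa using hF' β.2 hβ⟩) H'
  have hW : ∑ z ∈ X, w z ≤ (b : ℝ) ^ (2 * M * d) := by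
    rw [← ms_eq_sum X w (E := closedBall u r₀) (p := p) hX, pow_mul]
    refine (hms u r₀ hr₀).trans (pow_le_pow_left₀ (by linarith) ?_ _)
    rw [hb2M]; nlinarith [one_le_pow₀ hb1 (n := 2)]
  have hW0 : 0 ≤ ∑ z ∈ X, w z := Finset.sum_nonneg hw
  have hGH : ‖H'‖ ^ 2 ≤ ‖G‖ ^ 2 := by
    refine pow_le_pow_left₀ (norm_nonneg _) (Lp.norm_le_norm_of_ae_le ?_) 2
    filter_upwards [hHG] with ξ h
    rw [h]
    refine mul_le_of_le_one_left (norm_nonneg _) (Real.exp_le_one_iff.2 ?_)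
    have : 0 ≤ (b : ℝ) ^ 2 - 1 := by nlinarith
    have : 0 ≤ Real.pi * ((b : ℝ) ^ 2 - 1) * ‖ξ‖ ^ 2 := by positivity
    linarith
  have ha : (0 : ℝ) < (b : ℝ) ^ M := by positivity
  have hfar : ‖loc ((b : ℝ) ^ M) 0 Aᶜ H'‖ ^ 2 ≤ Real.exp (-b) * 2 ^ d * ‖G‖ ^ 2 := by
    refine (norm_loc_sq_le ha 0 hAm.compl H').trans ?_
    have hA' : MeasurableSet {ζ : V d | ¬ ‖ζ‖ ≤ 3} :=
      (isClosed_le continuous_norm continuous_const).measurableSet.compl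
    refine freq_cmp ha 0 hA' H' G (Real.exp_pos _).le ?_
    filter_upwards [hHG] with ξ h ζ hζ
    rw [h, mul_pow, ← mul_assoc, ← Real.exp_nat_mul, ← Real.exp_add]
    gcongr
    push_cast
    exact aux_far hb2 (by rw [← pow_mul]; exact le_self_pow₀ hb1 (by omega)) (not_le.1 hζ)
  have hsplit : En X p w (fun _ => H) ≤
      2 * En X p' w (fun z => tower b (fun _ _ => A) M M H' (p' z).2) +
        2 * (∑ z ∈ X, w z) * ‖loc ((b : ℝ) ^ M) 0 Aᶜ H'‖ ^ 2 := by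
    unfold En
    rw [Finset.mul_sum, mul_assoc, Finset.sum_mul, Finset.mul_sum, ← Finset.sum_add_distrib]
    refine Finset.sum_le_sum fun z hz => ?_
    have e1 : tower b (fun _ _ => A) M M H' (p' z).2 = loc ((b : ℝ) ^ M) 0 A H' := by
      rw [tower_eq_loc b _ le_rfl, tower_top, lev, wt, hwin z hz]; simp
    have e2 : H' = loc ((b : ℝ) ^ M) 0 A H' + loc ((b : ℝ) ^ M) 0 Aᶜ H' := by
      rw [← loc_union ha 0 hAm hAm.compl disjoint_compl_right, union_compl_self, loc_univ ha]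
    have e3 : ‖inner ℂ (pt (p' z)) (loc ((b : ℝ) ^ M) 0 Aᶜ H')‖ ≤ ‖loc ((b : ℝ) ^ M) 0 Aᶜ H'‖ := by
      refine (norm_inner_le_norm _ _).trans ?_
      rw [norm_pt, one_mul]
    have e4 : ‖inner ℂ (pt (p z)) H‖ ≤ ‖inner ℂ (pt (p' z)) (loc ((b : ℝ) ^ M) 0 A H')‖ +
        ‖loc ((b : ℝ) ^ M) 0 Aᶜ H'‖ := by
      rw [hH' (p z)]
      conv_lhs => rw [e2, inner_add_right]
      exact (norm_add_le _ _).trans (add_le_add le_rfl e3)
    simp only [e1]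
    have e5 := pow_le_pow_left₀ (norm_nonneg _) e4 2
    exact aux_sq (hw z hz) e5
  have hexp : (b : ℝ) ^ (1 / ((d : ℝ) + 2) * M) * 7 ^ d * 1 ^ ((d : ℝ) / (d + 2)) *
      ((b : ℝ) ^ M * ((b : ℝ) ^ M) ^ d) ^ (2 / ((d : ℝ) + 2)) = 7 ^ d * (b : ℝ) ^ e₁ := by
    rw [Real.one_rpow, mul_one, ← pow_succ', ← pow_mul, ← Real.rpow_natCast (b : ℝ) (M * _),
      ← Real.rpow_mul (by linarith), mul_right_comm, ← Real.rpow_add (by linarith), mul_comm]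
    congr 2
    rw [he₁]; push_cast; field_simp; ring
  rw [hexp] at hS
  have hb3 : 1 ≤ (b : ℝ) ^ e₁ := Real.one_le_rpow hb1 he₁0
  have hq1 : (∑ z ∈ X, w z) / (b : ℝ) ^ (2 * d * M) ≤ 1 := by
    rw [div_le_one (by positivity), mul_right_comm]; exact hW
  have hq2 : (∑ z ∈ X, w z) * Real.exp (-b) ≤ (2 * M * d).factorial := by
    have := Real.pow_div_factorial_le_exp (b : ℝ) (by linarith) (2 * M * d)
    rw [div_le_iff₀ (by positivity)] at this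
    rw [Real.exp_neg, ← div_eq_mul_inv, div_le_iff₀ (Real.exp_pos _)]
    linarith
  have hfin : En X p w (fun _ => H) ≤ C₁ * (b : ℝ) ^ e₁ * ‖G‖ ^ 2 := by
    have e1 : En X p' w (fun z => tower b (fun _ _ => A) M M H' (p' z).2) ≤
        (7 ^ d + 1) * (b : ℝ) ^ e₁ * ‖G‖ ^ 2 := by
      refine hS.trans (mul_le_mul (by linarith) hGH (by positivity) (by positivity))
    have e2 : (∑ z ∈ X, w z) * ‖loc ((b : ℝ) ^ M) 0 Aᶜ H'‖ ^ 2 ≤
        (2 * M * d).factorial * 2 ^ d * (b : ℝ) ^ e₁ * ‖G‖ ^ 2 := by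
      calc _ ≤ (∑ z ∈ X, w z) * (Real.exp (-b) * 2 ^ d * ‖G‖ ^ 2) := by gcongr
        _ = (∑ z ∈ X, w z) * Real.exp (-b) * 2 ^ d * 1 * ‖G‖ ^ 2 := by ring
        _ ≤ _ := by gcongr
    calc _ ≤ _ := hsplit
      _ ≤ 2 * ((7 ^ d + 1) * (b : ℝ) ^ e₁ * ‖G‖ ^ 2) +
          2 * ((2 * M * d).factorial * 2 ^ d * (b : ℝ) ^ e₁ * ‖G‖ ^ 2) := by
          rw [mul_assoc 2 (∑ z ∈ X, w z)]; gcongr
      _ = _ := by rw [hC₁]; ring
  refine hfin.trans ?_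
  have e1 : (b : ℝ) ^ e₁ * (b : ℝ) ^ d ≤ ((b₀ : ℝ) + 6) ^ (e₁ + d) * r₀ ^ (κ * (e₁ + d)) := by
    rw [← Real.rpow_natCast (b : ℝ) d, ← Real.rpow_add (by linarith),
      Real.rpow_mul (by linarith), ← Real.mul_rpow (by positivity) (by positivity)]
    gcongr
  calc _ = C₁ * ((b : ℝ) ^ e₁ * (b : ℝ) ^ d) * ‖H‖ ^ 2 := by rw [hG]; ring
    _ ≤ C₁ * (((b₀ : ℝ) + 6) ^ (e₁ + d) * r₀ ^ (κ * (e₁ + d))) * ‖H‖ ^ 2 := by gcongr
    _ = _ := by ring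

end CD

end Crest.Agent.N76.II
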