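import Crest.Agent.N76.II.Defs

/-! # Row 76 (S0101): the leaves of Lemma P (helper16).

`LP ⇐ CD + L0 + AV + SG + UT + CH`, `CD ⇐ DZ`, `L0 ⇐ LB + PhiB + Stop`, `UT ⇐ AV + SG + CH`. -/

set_option autoImplicit false

open MeasureTheory Set Metric
open scoped ENNReal RealInnerProductSpace

namespace Crest.Agent.N76.II

open Crest.Agent.N76.Red (V ph)
open Crest.Agent.N76.G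

variable {d : ℕ}

/-- the line through the space-time point `u` with direction `ζ` -/
noncomputable def lin (u : V d × ℝ) (ζ : V d) : Ph d := (u.1 + (2 * u.2) • ζ, ζ)

/-- majorant of the overlap of two width `K` states at `u`, `u'` with the same direction -/
noncomputable def Gs (K c₀ : ℝ) (u u' : V d × ℝ) (ζ : V d) : ℝ :=
  pre d K u.2 K u'.2 * Real.exp (-c₀ * Qf K u.2 K u'.2 (lin u ζ - lin u' ζ))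

/-- (unnormalised by a dimensional constant) average over a space-time ball -/
noncomputable def bavg (W : V d × ℝ → ℝ) (r : ℝ) (u : V d × ℝ) : ℝ :=
  (∫ u' in closedBall u r, W u') / r ^ (d + 1)

/-- continuous, between `0` and `Mx`, log-Lipschitz at scale `r` -/
def Nice (W : V d × ℝ → ℝ) (Mx r : ℝ) : Prop :=
  Continuous W ∧ (∀ u, 0 ≤ W u ∧ W u ≤ Mx) ∧ ∀ u u', W u ≤ Real.exp (dist u u' / r) * W u'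

/-- weight of a line for a family of weights indexed by directions -/
noncomputable def lw (Λ : Finset (V d)) (K : ℝ) (W : V d → V d × ℝ → ℝ) (t₁ t₂ : ℝ) (β : Ph d) :
    ℝ :=
  ∑ ζ ∈ Λ, Real.exp (-K * ‖β.2 - ζ‖) * xray (W ζ) t₁ t₂ β

/-- regularity of a configuration: the sliced Bourgain profile up to a factor `B` -/
def Reg {ι : Type*} (R B : ℝ) (X : Finset ι) (p : ι → V d × ℝ) (w : ι → ℝ) : Prop :=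
  (∀ z ∈ X, 0 ≤ w z) ∧ ∀ u r, 1 ≤ r → ms X p w (closedBall u r) ≤ B * prd d R r

/-- **CD**: operator norm of one cluster. -/
def CD (d : ℕ) : Prop :=
  ∃ a C : ℝ, 0 < a ∧ a < 2 / ((d : ℝ) + 2) ∧ 0 ≤ C ∧
    ∀ (ι : Type) (X : Finset ι) (p : ι → V d × ℝ) (w : ι → ℝ), (∀ z ∈ X, 0 ≤ w z) →
    ∀ N₁ K₀ : ℝ, 0 < N₁ → N₁ ≤ K₀ → 1 ≤ K₀ →
    (∀ u r, 1 ≤ r → r ≤ (d + 1) * K₀ → ms X p w (closedBall u r) ≤ r ^ d) →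
    (∀ z ∈ X, ∀ r, 0 ≤ r →
      ms X p w (closedBall (p z) r) ≤ N₁ * (max 1 (r / K₀)) ^ (1 / 4 : ℝ)) →
    ∀ H : L2 d, En X p w (fun _ => H) ≤ C * min N₁ (N₁ ^ a) * ‖H‖ ^ 2

/-- **LB**: lossless localisation of a Bessel inequality. -/
def LB (d : ℕ) : Prop :=
  ∃ C : ℝ, 0 ≤ C ∧ ∀ (κ : Type) (s : Finset κ) (u : κ → V d × ℝ) (ζ : V d) (K r a t t₀ μ : ℝ),
    0 < K → K ≤ a → K * a ≤ r → |t - t₀| ≤ 2 * a ^ 2 → (∀ k ∈ s, |(u k).2 - t₀| ≤ 2 * r) →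
    0 ≤ μ → (∀ k ∈ s, ∑ k' ∈ s, Gs K (Real.pi / 2) (u k) (u k') ζ ≤ μ) →
    ∀ (Ω : Ph d → ℝ) (Ωm : ℝ), Measurable Ω → (∀ β, 0 ≤ Ω β ∧ Ω β ≤ Ωm) →
    (∀ β, ∀ k ∈ s, Real.exp (-(K / r) * ‖pos t₀ (β - lin (u k) ζ)‖) ≤ Ω β) →
    ∀ c : Ph d → ℂ, MemLp c 2 volume →
    ∑ k ∈ s, ‖co K (u k).2 (syn a t c) (lin (u k) ζ)‖ ^ 2 ≤
      C * μ * ∫ β, Real.exp (-K * ‖β.2 - ζ‖) * Ω β * ‖c β‖ ^ 2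

open Classical in
/-- **PhiB**: few directions are crowded at small times. -/
def PhiB (d : ℕ) : Prop :=
  ∀ η C₁ : ℝ, 0 < η → η ≤ 1 / 4 → 1 ≤ C₁ → ∃ C : ℝ, 0 ≤ C ∧ ∀ R B K : ℝ, 1 ≤ R → 1 ≤ B → 1 ≤ K →
    8 * K ^ 2 ≤ Ssc (d + 1) R → B ^ 30 ≤ Ssc (d + 1) R →
    ∀ (ι : Type) (𝒞 : Finset ι) (p : ι → V d × ℝ) (u : V d × ℝ),
    (∀ r, K ≤ r → r ≤ Ssc (d + 1) R / 8 →
      ((𝒞.filter fun c => p c ∈ closedBall u r).card : ℝ) ≤ C₁ * (r / K) ^ η) →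
    (∀ r, 1 ≤ r → ((𝒞.filter fun c => p c ∈ closedBall u r).card : ℝ) ≤ C₁ * B ^ 7 * prd d R r) →
    ∀ μ : ℝ, 0 < μ →
    volume {ζ : V d | ‖ζ‖ ≤ 3 ∧ μ ≤ ∑ c ∈ 𝒞.filter
        (fun c => |(p c).2 - u.2| ≤ 2 * (Ssc (d + 1) R ^ 2 / B ^ 30)), Gs K (Real.pi / 8) u (p c) ζ}
      ≤ ENNReal.ofReal (C * (μ ^ (-(d : ℝ) / (4 * η)) + 1 / (B ^ 8 * μ)))

open Classical in
/-- **Stop**: stopping scales `s j = rlo 2^j` (`rlo = ρ / B^30`) and tile weights for one direction. -/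
def Stop (d : ℕ) : Prop :=
  ∃ C B₀ : ℝ, 0 ≤ C ∧ ∀ R B K N : ℝ, 1 ≤ R → B₀ ≤ B → 1 ≤ K → K ^ 2 * B ^ 30 ≤ Ssc (d + 1) R ^ 2 →
    1 / B ^ 6 ≤ N → N ≤ B →
    ∀ (ι : Type) (X : Finset ι) (p : ι → V d × ℝ) (w : ι → ℝ), Reg R B X p w →
    ∀ 𝒞 : Finset ι, (∀ c ∈ 𝒞, N ≤ ms X p w (closedBall (p c) K)) →
    (∀ c ∈ 𝒞, ∀ c' ∈ 𝒞, c ≠ c' → K / 2 ≤ dist (p c) (p c')) →
    ∀ ζ : V d, ‖ζ‖ ≤ 4 → ∀ rlo : ℝ, rlo = Ssc (d + 1) R ^ 2 / B ^ 30 →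
    ∃ (J : ℕ) (js : ι → ℕ) (Ω : ℕ → V d × ℝ → ℝ),
      rlo * 2 ^ J ≤ Ssc (d + 1) R ^ 2 * B ^ 2 ∧ (∀ c ∈ 𝒞, js c ≤ J) ∧
      (∀ c ∈ 𝒞, ∑ c' ∈ 𝒞.filter (fun c' => js c' = js c ∧ 2 * rlo < |(p c').2 - (p c).2| ∧
          |(p c').2 - (p c).2| ≤ rlo * 2 ^ js c), Gs K (Real.pi / 4) (p c) (p c') ζ ≤ C) ∧
      (∀ j, Nice (Ω j) 1 (rlo / (10 * K))) ∧
      (∀ c ∈ 𝒞, ∀ u, Real.exp (-(K * ‖(lin u ζ - lin (p c) ζ).1‖ + |u.2 - (p c).2|) /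
          (rlo * 2 ^ js c)) ≤ Ω (js c) u) ∧
      ∀ u, N ^ (2 / ((d : ℝ) + 2)) *
          bavg (fun u' => ∑ j ∈ Finset.range (J + 1), Ω j u' / (rlo * 2 ^ j))
            (Ssc (d + 1) R ^ 2 * B ^ 3) u ≤
        C * (vv X p w (Ssc (d + 1) R ^ 2 * B ^ 3) u + 1 / (B * Ssc (d + 1) R ^ 2))

open Classical in
/-- **L0**: one class of clusters (centres `𝒞`) in one window `[t, t + a²]` of the lowest level. -/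
def L0 (d : ℕ) : Prop :=
  ∀ θ : ℝ, 0 < θ → θ < 1 → ∃ η : ℝ, 0 < η ∧ η ≤ 1 / 4 ∧ ∃ C B₀ : ℝ, 1 ≤ C ∧
    ∀ R B K N a t b : ℝ, 1 ≤ R → B₀ ≤ B → B ≤ K → 8 * K ^ 2 ≤ Ssc (d + 1) R →
    B ^ 31 ≤ Ssc (d + 1) R → 1 / B ^ 6 ≤ N → N ≤ B → K ≤ a →
    K * a * B ^ 30 ≤ Ssc (d + 1) R ^ 2 → 2 * (Ssc (d + 1) R ^ 2 * B ^ 2) ≤ a ^ 2 → 1 ≤ b → b ≤ B →
    ∀ (ι : Type) (X : Finset ι) (p : ι → V d × ℝ) (w : ι → ℝ), Reg R B X p w →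
    ∀ 𝒞 : Finset ι, Real.log (𝒞.card + 1) ≤ B →
    (∀ c ∈ 𝒞, N ≤ ms X p w (closedBall (p c) K)) →
    (∀ c ∈ 𝒞, ∀ c' ∈ 𝒞, c ≠ c' → K / 2 ≤ dist (p c) (p c')) →
    (∀ c ∈ 𝒞, ∀ r, K ≤ r → r ≤ Ssc (d + 1) R / 4 →
      ms X p w (closedBall (p c) r) ≤ 4 * N * (r / K) ^ η) →
    (∀ c ∈ 𝒞, t ≤ (p c).2 ∧ (p c).2 ≤ t + a ^ 2) →
    ∃ (Λ : Finset (V d)) (W : V d → V d × ℝ → ℝ),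
      (Λ.card : ℝ) ≤ C * K ^ d ∧ (∀ ξ : V d, ∑ ζ ∈ Λ, Real.exp (-K * ‖ξ - ζ‖) ≤ C) ∧
      (∀ ζ ∈ Λ, Nice (W ζ) (2 * B ^ 30 / Ssc (d + 1) R ^ 2)
        (Ssc (d + 1) R ^ 2 / B ^ 30 / (10 * K))) ∧
      (∀ ζ ∈ Λ, ∀ u, N ^ (2 / ((d : ℝ) + 2)) * bavg (W ζ) (Ssc (d + 1) R ^ 2 * B ^ 3) u ≤
        C * (vv X p w (Ssc (d + 1) R ^ 2 * B ^ 3) u + 1 / (B * Ssc (d + 1) R ^ 2))) ∧
      ∀ (Y : Finset ι) (π : ι → ι) (D : ℝ), Y ⊆ X → 0 ≤ D →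
        (∀ z ∈ Y, π z ∈ 𝒞 ∧ dist (p z) (p (π z)) ≤ K) →
        (∀ c ∈ 𝒞, ∑ z ∈ Y.filter (fun z => π z = c), w z ≤ 2 * N) →
        (∀ c ∈ 𝒞, ∀ H : L2 d, En (Y.filter fun z => π z = c) p w (fun _ => H) ≤ D * ‖H‖ ^ 2) →
      ∀ (c : Ph d → ℂ) (φ₀ Ef : ℝ) (Φ : ι → Set (V d)), MemLp c 2 volume → 0 ≤ φ₀ → 0 ≤ Ef →
        (∀ z ∈ Y, MeasurableSet (Φ (π z)) ∧ volume (Φ (π z)) ≤ ENNReal.ofReal φ₀ ∧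
          Φ (π z) ⊆ closedBall 0 3 ∧
          ∫ β in {β : Ph d | ‖pos (p (π z)).2 β - (p (π z)).1‖ ≤ b * K ∧ β.2 ∉ Φ (π z)},
            ‖co K (p (π z)).2 (syn a t c) β‖ ^ 2 ≤ Ef) →
        En Y p w (fun _ => syn a t c) ≤
          C * (D ^ (1 - θ) * N ^ θ * φ₀ ^ (θ / 2) + N ^ (2 / ((d : ℝ) + 2)) / B ^ 3) *
            (∫ β, lw Λ K W (t - a ^ 2 / 2) (t + 3 * a ^ 2 / 2) β * ‖c β‖ ^ 2)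
          + C * (∑ z ∈ Y, w z) * (Ef + Real.exp (-b) * ∫ β, ‖c β‖ ^ 2)

/-- **AV**: outside a sparse set of bad lines a weight may be replaced by its average. -/
def AV (d : ℕ) : Prop :=
  ∃ C : ℝ, 1 ≤ C ∧ ∀ (Λ : Finset (V d)) (W : V d → V d × ℝ → ℝ)
    (K C₁ Mx r r' r'' t₁ l R τ φ aj Dm : ℝ),
    1 ≤ K → 0 ≤ C₁ → (Λ.card : ℝ) ≤ C₁ * K ^ d → (∀ ξ : V d, ∑ ζ ∈ Λ, Real.exp (-K * ‖ξ - ζ‖) ≤ C₁) →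
    0 < Mx → (∀ ζ ∈ Λ, Nice (W ζ) Mx r) → 0 < r'' → r'' ≤ r → r'' ≤ l → 0 < r' → r' ≤ l →
    l ≤ 3 * R → 0 < τ → 0 < φ → K ≤ aj → 0 ≤ Dm → Dm ≤ r / 4 → l / aj ≤ r / 4 →
    ∀ (ι : Type) (X : Finset ι) (p : ι → V d × ℝ),
    (∀ z ∈ X, ‖(p z).1‖ ≤ R ∧ t₁ ≤ (p z).2 ∧ (p z).2 ≤ t₁ + l) →
    ∃ (Bad : Set (Ph d)) (E : Finset ι), MeasurableSet Bad ∧
      Cov E p r'' (C * C₁ ^ 2 * Real.sqrt (K * r' / l) * R ^ d * l / (τ ^ 2 * φ * r'' ^ (d + 1))) ∧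
      (∀ z ∈ X, z ∉ E → ∃ F : Finset (V d), (F.card : ℝ) ≤ φ * aj ^ d ∧
        ∀ β ∈ Bad, ‖β.2‖ ≤ 3 → ‖pos (p z).2 β - (p z).1‖ ≤ Dm → ∃ ζ ∈ F, ‖β.2 - ζ‖ ≤ 1 / aj) ∧
      ∀ β, β ∉ Bad → ‖β.2‖ ≤ 3 → lw Λ K W t₁ (t₁ + l) β ≤
        C * lw Λ K (fun ζ => bavg (W ζ) r') (t₁ - r') (t₁ + l + r') β + C * τ * Mx * l

/-- **CH**: a tower does not move lines (chain of transfers). -/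
def CH (d : ℕ) : Prop :=
  ∀ M : ℕ, ∃ C : ℝ, 1 ≤ C ∧ ∀ (R : ℝ) (b i : ℕ), 1 ≤ R → 2 ≤ b → (b : ℝ) ^ (2 * M) ≤ R → i ≤ M + 1 →
    ∀ (A : ℕ → ℤ → Set (Ph d)), (∀ l k, MeasurableSet (A l k)) →
    ∀ (a t t' ρ₁ ρ₂ : ℝ), 1 ≤ a → a ≤ (b : ℝ) ^ i → a ≤ Real.sqrt R → |t| ≤ R → |t' - t| ≤ a ^ 2 →
    C * b * Real.sqrt R ≤ ρ₁ → C * b / a ≤ ρ₂ →
    ∀ (𝓡 F : Set (Ph d)), MeasurableSet 𝓡 → MeasurableSet F →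
    (∀ β ∈ F, ∀ β' ∈ 𝓡, ρ₁ ≤ ‖pos t (β - β')‖ ∨ ρ₂ ≤ ‖β.2 - β'.2‖) →
    ∀ g : L2 d, ∫ β in F, ‖co a t' (tower b A i M (loc (Real.sqrt R) 0 𝓡 g) t) β‖ ^ 2 ≤
      C * R ^ d * Real.exp (-(b : ℝ)) * ‖g‖ ^ 2

/-- **UT**: the upper levels `i₀ + 1 … M` of the tower (independent of the class). -/
def UT (d : ℕ) : Prop :=
  ∀ α : ℝ, 0 < α → ∃ M₀ : ℕ, ∀ M : ℕ, M₀ ≤ M → ∃ C R₀ : ℝ, 0 ≤ C ∧ 1 ≤ R₀ ∧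
    ∀ R : ℝ, R₀ ≤ R → ∀ B : ℝ, R ^ α ≤ B → ∀ b : ℕ, 2 ≤ b → (b : ℝ) ≤ B →
    R / B ≤ (b : ℝ) ^ (2 * M) → (b : ℝ) ^ (2 * M) ≤ R → B ^ 2 ≤ R →
    ∀ j i₀ k₁ : ℕ, j ≤ i₀ → i₀ < M → B ^ 24 ≤ (b : ℝ) ^ j → (b : ℝ) ^ (2 * j) ≤ Ssc (d + 1) R →
    Ssc (d + 1) R ^ 2 * B ^ 23 ≤ (b : ℝ) ^ (2 * i₀) → (b : ℝ) ^ i₀ ≤ Ssc (d + 1) R ^ 2 →
    (b : ℝ) ^ (2 * i₀) ≤ Ssc (d + 1) R ^ 2 * (b : ℝ) ^ j →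
    Ssc (d + 1) R ^ 2 ≤ 2 ^ k₁ → (2 : ℝ) ^ k₁ ≤ 2 * Ssc (d + 1) R ^ 2 →
    ∀ (ι : Type) (X : Finset ι) (p : ι → V d × ℝ) (w : ι → ℝ) (k₀ : ℤ), Reg R B X p w →
    (∀ z ∈ X, p z ∈ closedBall (0 : V d × ℝ) R) → (∀ z ∈ X, win b M (p z).2 = k₀) →
    ∃ (G : ℕ → ℤ → Set (Ph d)) (E : Finset ι), (∀ l k, MeasurableSet (G l k)) ∧
      (∀ l k, ∀ β ∈ G l k, ‖β.2‖ ≤ 3) ∧
      Cov E p (2 ^ k₁) (R ^ d * (b : ℝ) ^ (2 * M) / (B ^ 2 * (2 ^ k₁) ^ (d + 1))) ∧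
      ∀ (𝓡 : Set (Ph d)) (g : L2 d), MeasurableSet 𝓡 → (∀ β ∈ 𝓡, ‖β.2‖ ≤ 2) →
      (∀ X' : Finset ι, X' ⊆ X → (∀ z ∈ X', z ∉ E) →
        En X' p w (fun _ => loc (Real.sqrt R) 0 𝓡 g) ≤
          2 * En X' p w (fun z => tower b G (i₀ + 1) M (loc (Real.sqrt R) 0 𝓡 g) (p z).2)
          + C * ((b : ℝ) ^ (2 * M) / (B * Ssc (d + 1) R ^ 2)) * ‖g‖ ^ 2) ∧
      (X.Nonempty → ∑ k ∈ Finset.Ico (k₀ * (b : ℤ) ^ (2 * (M - i₀))) ((k₀ + 1) * (b : ℤ) ^ (2 * (M - i₀))),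
        ∫ β in {β : Ph d | ‖β.2‖ ≤ 3}, xray (vv X p w (Ssc (d + 1) R ^ 2 * B ^ 3))
            ((k - 1) * (b : ℝ) ^ (2 * i₀)) ((k + 2) * (b : ℝ) ^ (2 * i₀)) β *
          ‖co ((b : ℝ) ^ i₀) (k * (b : ℝ) ^ (2 * i₀))
            (tower b G (i₀ + 1) M (loc (Real.sqrt R) 0 𝓡 g) (k * (b : ℝ) ^ (2 * i₀))) β‖ ^ 2 ≤
        C * (∫ β in 𝓡, xray (vv X p w ((b : ℝ) ^ (2 * M) / B ^ 20))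
            ((k₀ - 1) * (b : ℝ) ^ (2 * M)) ((k₀ + 2) * (b : ℝ) ^ (2 * M)) β *
            ‖co (Real.sqrt R) 0 g β‖ ^ 2)
        + C * ((b : ℝ) ^ (2 * M) / (B * Ssc (d + 1) R ^ 2)) * ‖g‖ ^ 2)

end Crest.Agent.N76.II
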